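import Vale.Agent.P273.H778.T2Defs
import Vale.Agent.P273.H469.SepDef
import Vale.Agent.P273.H422.GenAdm

/-!
# P273, crew ASY0, (T2) item (G): the limits of the legs after the recursion

At the dilated points of a generic point the collision part of a leg tends to zero, because near
marks belong to the same component, have the same limit leg, and move rigidly.
-/

set_option linter.unusedSectionVars false

noncomputable section

namespace Vale.Agent.P273.H768.T2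

open Set Filter H681 H95 H732 H562 H973 H803
open scoped Topology ContDiff
open H578 (chiT psiT rad Nr LogN Pt SCl)

section Defs

variable (R : H95.Region) (m : ∀ k, Fin (R.n k + 1))

/-- the roots near a point of the log chart -/
def bR (p : Co R m) : C6 := (posE R m p).1

/-- the points of the marks of type `t` -/
def PM (S : L → Bool) (t : Bool) (p : Co R m) (k : Fin 7) : ℂ × ℂ :=
  PP S t (posE R m p) (shE R m S p) k

/-- the marks that are not at infinity -/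
def aM (S : L → Bool) (t : Bool) (p : Co R m) (k : Fin 7) : Prop := fin S t (posE R m p) k

/-- the functions `g_k` of the recursion, the set of the finite marks fixed at `p` -/
def gM (O : One) (S : L → Bool) (t : Bool) (ξ : Fin 6 → ℝ) (p : Co R m) (k : Fin 7) :
    Co R m → ℝ :=
  gfun (fun k l p' => chiT (aM R m S t p) (bR R m p') (PM R m S t p') k l)
    (fun k l p' => psiT (etx O ξ) (aM R m S t p) (bR R m p') (PM R m S t p') k l) k

/-- the bridge at a point, for marks of type `t` -/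
structure Brg (O : One) (Θ : Gauge) (S : L → Bool) (t : Bool) (p : Co R m) : Prop where
  mem : bR R m p ∈ XX
  smb : ContDiffAt ℝ ∞ (bR R m) p
  smP : ∀ k, aM R m S t p k → ContDiffAt ℝ ∞ (fun p' => PM R m S t p' k) p
  pt : ∀ k, aM R m S t p k → ∀ᶠ p' in 𝓝 p, Pt (bR R m p') (PM R m S t p' k)
  leg : ∀ ξ, IsCl ξ → ∀ k, leg R m Θ S (k, t) ξ p =
    lgP O R m S (k, t) ξ p + fderiv ℝ (gM R m O S t ξ p k) p
  pb : ∀ ξ, IsCl ξ → ∀ k, aM R m S t p k → ∀ v,
    H578.pb (etx O ξ) (bR R m) (fun p' => PM R m S t p' k) p v = lgP O R m S (k, t) ξ p v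

/-- **the rigid motion of the near marks of one component** at the dilated points, in the direction
`w N` -/
def Rig (S : L → Bool) (B : Set (W R m).Fr) (p : Co R m) (t : Bool) (k l : Fin 7)
    (w : ℝ → Co R m) : Prop :=
  ∃ C c : ℝ, 0 < c ∧ ∀ᶠ N : ℝ in atTop, aM R m S t ((W R m).dpt B N p) k →
    aM R m S t ((W R m).dpt B N p) l →
    Nr (rad k) (bR R m ((W R m).dpt B N p)) (PM R m S t ((W R m).dpt B N p) k)
      (PM R m S t ((W R m).dpt B N p) l) →
    ∃ ζ : ℂ, LogN (bR R m) (fun p' => PM R m S t p' k) ((W R m).dpt B N p) (w N) ζ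
        (C * Real.exp (-c * N)) ∧
      LogN (bR R m) (fun p' => PM R m S t p' l) ((W R m).dpt B N p) (w N) ζ
        (C * Real.exp (-c * N))

/-- **separation**: the marks are not near at the dilated points -/
def Sepa (S : L → Bool) (B : Set (W R m).Fr) (p : Co R m) (t : Bool) (k l : Fin 7) : Prop :=
  ∀ᶠ N : ℝ in atTop, aM R m S t ((W R m).dpt B N p) k → aM R m S t ((W R m).dpt B N p) l →
    ¬ Nr (rad k) (bR R m ((W R m).dpt B N p)) (PM R m S t ((W R m).dpt B N p) k)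
      (PM R m S t ((W R m).dpt B N p) l)

end Defs

theorem isOpen_XX' : IsOpen XX := H401.isOpen_XX

/-- `N ^ 2 exp (- c N) → 0`, with a constant -/
theorem tendsto_mul_exp {c : ℝ} (hc : 0 < c) (C : ℝ) :
    Tendsto (fun N : ℝ => N * (C * Real.exp (-c * N))) atTop (𝓝 0) := by
  have h := Real.tendsto_pow_mul_exp_neg_atTop_nhds_zero 1
  have h1 : Tendsto (fun N : ℝ => c * N) atTop atTop := tendsto_id.const_mul_atTop hc
  have h2 := (h.comp h1).const_mul (C / c)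
  rw [mul_zero] at h2
  refine h2.congr fun N => ?_
  simp only [Function.comp, pow_one]
  rw [neg_mul]
  field_simp

/-- the difference of two near marks -/
theorem exists_del_le {O : One} (hV : Vert O) : ∃ K N₀ : ℝ, 0 ≤ K ∧ 1 ≤ N₀ ∧ ∀ y α, BaseOk N₀ y α →
    ∀ ξ, IsCl ξ → ∀ (P Q : ℂ × ℂ) (k : ℕ), Pt (rootsL y α) P → Nr (rad k) (rootsL y α) P Q →
      ‖H578.del (etx O ξ) (rootsL y α) P Q‖ ≤ K * ‖ξ‖ := by
  obtain ⟨K, N₀, h0, h⟩ := hV.v1
  refine ⟨2 * |K|, N₀, by positivity, h0, fun y α hb ξ hξ P Q k hP hN => ?_⟩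
  have h1 := H578.norm_del_le_vert (η := etx O ξ) (A := |K| * ‖ξ‖) hP (H578.rad_pos k)
    (H578.small_rad k) hN fun x' hx' w => ?_
  · refine h1.trans ?_
    have h2 := H578.rad_le k
    have h3 := H578.rad_pos k
    have h4 : 0 ≤ |K| * ‖ξ‖ := by positivity
    nlinarith
  · have hH := H578.Hs_pos hP.off
    have h2 : Pt (rootsL y α) (x', H578.cont (rootsL y α) P x') := by
      refine H578.cont_pt hP (hx'.trans ?_)
      have := H578.rad_le k
      nlinarith
    have h3 := h y α hb ξ hξ x' (H578.cont (rootsL y α) P x') w (on1_false.2 h2)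
    have hH' := H578.Hs_pos (b := rootsL y α) (x := x') h2.off
    rw [Real.norm_eq_abs]
    calc |etx O ξ (rootsL y α) x' (H578.cont (rootsL y α) P x') (0, w)| *
          H578.Hs (rootsL y α) x'
        ≤ (K * ‖ξ‖ * (‖w‖ / H578.Hs (rootsL y α) x')) * H578.Hs (rootsL y α) x' :=
          mul_le_mul_of_nonneg_right h3 hH'.le
      _ = K * ‖ξ‖ * ‖w‖ := by field_simp
      _ ≤ |K| * ‖ξ‖ * ‖w‖ := by
          gcongr
          exact le_abs_self K


theorem LogN.mono {ι E : Type*} [Fintype ι] [NormedAddCommGroup E] [NormedSpace ℝ E]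
    {b : E → ι → ℂ} {p : E → ℂ × ℂ} {e v : E} {ζ : ℂ} {ρ ρ' : ℝ} (h : LogN b p e v ζ ρ)
    (hρ : ρ ≤ ρ') : LogN b p e v ζ ρ' := by
  intro i
  refine (h i).trans ?_
  have h1 : 0 ≤ qs fun i => (p e).1 - b e i := by
    unfold qs
    exact Finset.sum_nonneg fun _ _ => by positivity
  gcongr

section Main

variable {R : H95.Region} {m : ∀ k, Fin (R.n k + 1)} {S : L → Bool} {t : Bool}
  {B : Set (W R m).Fr} {p : Co R m} {ξ : Fin 6 → ℝ} {O : One} {Θ : Gauge}

/-- the input for one pair of marks -/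
theorem pair_data {k l : Fin 7} {w : ℝ → Co R m} {sca : ℝ → ℝ} (h0 : ∀ᶠ N in atTop, 0 ≤ sca N)
    (h1 : ∀ᶠ N in atTop, sca N ≤ N)
    (h : Sepa R m S B p t k l ∨ (Rig R m S B p t k l w ∧ Tendsto (fun N => sca N *
      (lgP O R m S (k, t) ξ ((W R m).dpt B N p) (w N) -
        lgP O R m S (l, t) ξ ((W R m).dpt B N p) (w N))) atTop (𝓝 0))) :
    ∃ b r : ℝ → ℝ, (∀ N, 0 ≤ b N) ∧ (∀ N, 0 ≤ r N) ∧ Tendsto (fun N => sca N * b N) atTop (𝓝 0) ∧
      Tendsto (fun N => sca N * r N) atTop (𝓝 0) ∧ ∀ᶠ N in atTop,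
        aM R m S t ((W R m).dpt B N p) k → aM R m S t ((W R m).dpt B N p) l →
        Nr (rad k) (bR R m ((W R m).dpt B N p)) (PM R m S t ((W R m).dpt B N p) k)
          (PM R m S t ((W R m).dpt B N p) l) →
        |lgP O R m S (k, t) ξ ((W R m).dpt B N p) (w N) -
          lgP O R m S (l, t) ξ ((W R m).dpt B N p) (w N)| ≤ b N ∧
        ∃ ζ : ℂ, LogN (bR R m) (fun p' => PM R m S t p' k) ((W R m).dpt B N p) (w N) ζ (r N) ∧
          LogN (bR R m) (fun p' => PM R m S t p' l) ((W R m).dpt B N p) (w N) ζ (r N) := by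
  rcases h with h | ⟨⟨C, c, hc, hR⟩, hT⟩
  · refine ⟨fun _ => 0, fun _ => 0, fun _ => le_rfl, fun _ => le_rfl, by simp, by simp, ?_⟩
    filter_upwards [h] with N hN h2 h3 h4
    exact absurd h4 (hN h2 h3)
  · refine ⟨fun N => |lgP O R m S (k, t) ξ ((W R m).dpt B N p) (w N) -
      lgP O R m S (l, t) ξ ((W R m).dpt B N p) (w N)|, fun N => |C| * Real.exp (-c * N),
      fun _ => abs_nonneg _, fun _ => by positivity, ?_, ?_, ?_⟩
    · have h2 := hT.abs
      rw [abs_zero] at h2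
      refine h2.congr' ?_
      filter_upwards [h0] with N hN
      rw [abs_mul, abs_of_nonneg hN]
    · refine squeeze_zero' ?_ ?_ (tendsto_mul_exp hc |C|)
      · filter_upwards [h0] with N hN
        positivity
      · filter_upwards [h1] with N hN
        gcongr
    · filter_upwards [hR] with N hN h2 h3 h4
      obtain ⟨ζ, h5, h6⟩ := hN h2 h3 h4
      refine ⟨le_rfl, ζ, LogN.mono h5 ?_, LogN.mono h6 ?_⟩ <;>
      · gcongr
        exact le_abs_self C

/-- **the collision part tends to zero** -/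
theorem tendsto_gM (hS : FarOk R S) (hG : Gen R m S B p) (hy : ∀ k, 0 < p.2.2.1 k)
    (hξ : IsCl ξ) (hV : Vert O) {N₁ : ℝ}
    (hB : ∀ q, Adm R m S N₁ q → Brg R m O Θ S t q) {w : ℝ → Co R m} {sca : ℝ → ℝ}
    (h0 : ∀ᶠ N in atTop, 0 ≤ sca N) (h1 : ∀ᶠ N in atTop, sca N ≤ N)
    (hp : ∀ k l : Fin 7, l < k → Sepa R m S B p t k l ∨ (Rig R m S B p t k l w ∧
      Tendsto (fun N => sca N * (lgP O R m S (k, t) ξ ((W R m).dpt B N p) (w N) -
        lgP O R m S (l, t) ξ ((W R m).dpt B N p) (w N))) atTop (𝓝 0))) (k : Fin 7) :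
    Tendsto (fun N => sca N * fderiv ℝ (gM R m O S t ξ ((W R m).dpt B N p) k)
      ((W R m).dpt B N p) (w N)) atTop (𝓝 0) := by
  classical
  obtain ⟨K, N₀, hK, hN₀, hdel⟩ := exists_del_le hV
  have key : ∀ k l : Fin 7, ∃ b r : ℝ → ℝ, (∀ N, 0 ≤ b N) ∧ (∀ N, 0 ≤ r N) ∧
      Tendsto (fun N => sca N * b N) atTop (𝓝 0) ∧
      Tendsto (fun N => sca N * r N) atTop (𝓝 0) ∧ ∀ᶠ N in atTop, l < k →
        aM R m S t ((W R m).dpt B N p) k → aM R m S t ((W R m).dpt B N p) l →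
        Nr (rad k) (bR R m ((W R m).dpt B N p)) (PM R m S t ((W R m).dpt B N p) k)
          (PM R m S t ((W R m).dpt B N p) l) →
        |lgP O R m S (k, t) ξ ((W R m).dpt B N p) (w N) -
          lgP O R m S (l, t) ξ ((W R m).dpt B N p) (w N)| ≤ b N ∧
        ∃ ζ : ℂ, LogN (bR R m) (fun p' => PM R m S t p' k) ((W R m).dpt B N p) (w N) ζ (r N) ∧
          LogN (bR R m) (fun p' => PM R m S t p' l) ((W R m).dpt B N p) (w N) ζ (r N) := by
    intro k l
    by_cases hlk : l < k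
    · obtain ⟨b, r, h2, h3, h4, h5, h6⟩ := pair_data h0 h1 (hp k l hlk)
      exact ⟨b, r, h2, h3, h4, h5, h6.mono fun N hN _ => hN⟩
    · exact ⟨fun _ => 0, fun _ => 0, fun _ => le_rfl, fun _ => le_rfl, by simp, by simp,
        Eventually.of_forall fun N h => absurd h hlk⟩
  choose b r hb hr hbt hrt hev using key
  have hbk : ∀ k l N, b k l N ≤ ∑ i, ∑ j, b i j N := fun k l N =>
    (Finset.single_le_sum (f := fun j => b k j N) (fun j _ => hb k j N) (Finset.mem_univ l)).trans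
      (Finset.single_le_sum (f := fun i => ∑ j, b i j N)
        (fun i _ => Finset.sum_nonneg fun j _ => hb i j N) (Finset.mem_univ k))
  have hrk : ∀ k l N, r k l N ≤ ∑ i, ∑ j, r i j N := fun k l N =>
    (Finset.single_le_sum (f := fun j => r k j N) (fun j _ => hr k j N) (Finset.mem_univ l)).trans
      (Finset.single_le_sum (f := fun i => ∑ j, r i j N)
        (fun i _ => Finset.sum_nonneg fun j _ => hr i j N) (Finset.mem_univ k))
  have hbT : Tendsto (fun N => sca N * ∑ i, ∑ j, b i j N) atTop (𝓝 0) := by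
    have h2 : Tendsto (fun N => ∑ i, ∑ j, sca N * b i j N) atTop (𝓝 (∑ i : Fin 7, ∑ j : Fin 7, 0)) :=
      tendsto_finsetSum _ fun i _ => tendsto_finsetSum _ fun j _ => hbt i j
    simp only [Finset.sum_const_zero] at h2
    refine h2.congr fun N => ?_
    simp only [Finset.mul_sum]
  have hrT : Tendsto (fun N => sca N * ∑ i, ∑ j, r i j N) atTop (𝓝 0) := by
    have h2 : Tendsto (fun N => ∑ i, ∑ j, sca N * r i j N) atTop (𝓝 (∑ i : Fin 7, ∑ j : Fin 7, 0)) :=
      tendsto_finsetSum _ fun i _ => tendsto_finsetSum _ fun j _ => hrt i j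
    simp only [Finset.sum_const_zero] at h2
    refine h2.congr fun N => ?_
    simp only [Finset.mul_sum]
  have hT : Tendsto (fun N => ((7 : ℕ) : ℝ) ^ 2 *
      (2 * (H578.Kn 7 * (sca N * ∑ i, ∑ j, r i j N)) * ((7 : ℕ) : ℝ) ^ 2 * (K * ‖ξ‖) +
        (sca N * (∑ i, ∑ j, b i j N) + H578.Kn 7 * (sca N * ∑ i, ∑ j, r i j N) * (K * ‖ξ‖))))
      atTop (𝓝 0) := by
    have h2 := ((((hrT.const_mul (H578.Kn 7)).const_mul 2).mul_const (((7 : ℕ) : ℝ) ^ 2)).mul_const
      (K * ‖ξ‖)).add (hbT.add ((hrT.const_mul (H578.Kn 7)).mul_const (K * ‖ξ‖)))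
    have h3 := h2.const_mul (((7 : ℕ) : ℝ) ^ 2)
    simpa using h3
  refine squeeze_zero_norm' ?_ hT
  have hall : ∀ᶠ N in atTop, ∀ k l : Fin 7, l < k →
        aM R m S t ((W R m).dpt B N p) k → aM R m S t ((W R m).dpt B N p) l →
        Nr (rad k) (bR R m ((W R m).dpt B N p)) (PM R m S t ((W R m).dpt B N p) k)
          (PM R m S t ((W R m).dpt B N p) l) →
        |lgP O R m S (k, t) ξ ((W R m).dpt B N p) (w N) -
          lgP O R m S (l, t) ξ ((W R m).dpt B N p) (w N)| ≤ b k l N ∧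
        ∃ ζ : ℂ, LogN (bR R m) (fun p' => PM R m S t p' k) ((W R m).dpt B N p) (w N) ζ
            (r k l N) ∧
          LogN (bR R m) (fun p' => PM R m S t p' l) ((W R m).dpt B N p) (w N) ζ (r k l N) :=
    eventually_all.2 fun k => eventually_all.2 fun l => hev k l
  filter_upwards [H422.gen_adm R m S hS B p hG hy (max N₀ N₁), hall, h0] with N hA hN hN0
  set e := (W R m).dpt B N p with he
  have hA1 : Adm R m S N₁ e := ⟨hA.1, fun k => (le_max_right _ _).trans (hA.2.1 k), hA.2.2⟩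
  have hbase : BaseOk N₀ e.2.2.1 e.2.2.2.1 :=
    ⟨fun k => (le_max_left _ _).trans (hA.2.1 k), hA.2.2.1⟩
  have hBr := hB e hA1
  have hsum1 : 0 ≤ ∑ i, ∑ j, b i j N := Finset.sum_nonneg fun i _ => Finset.sum_nonneg fun j _ =>
    hb i j N
  have hsum2 : 0 ≤ ∑ i, ∑ j, r i j N := Finset.sum_nonneg fun i _ => Finset.sum_nonneg fun j _ =>
    hr i j N
  have hbd := (H578.gfunT_bound (scl_etx O hξ) isOpen_XX' (b := bR R m) (P := PM R m S t)
    (a := aM R m S t e) (e := e) (v := w N) hBr.mem hBr.smb hBr.smP hBr.pt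
    (A := K * ‖ξ‖) (B := ∑ i, ∑ j, b i j N) (ρ := ∑ i, ∑ j, r i j N) (by positivity) hsum1
    hsum2 (fun k => Or.inr fun l hlk hk hl hN' => ?_) k).2.2
  · rw [norm_mul, Real.norm_of_nonneg hN0]
    calc sca N * ‖fderiv ℝ (gM R m O S t ξ e k) e (w N)‖
        ≤ sca N * (((7 : ℕ) : ℝ) ^ 2 * (2 * (H578.Kn 7 * ∑ i, ∑ j, r i j N) * ((7 : ℕ) : ℝ) ^ 2 *
          (K * ‖ξ‖) + (∑ i, ∑ j, b i j N + H578.Kn 7 * (∑ i, ∑ j, r i j N) * (K * ‖ξ‖)))) :=
          mul_le_mul_of_nonneg_left hbd hN0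
      _ = _ := by ring
  · obtain ⟨h2, ζ, h3, h4⟩ := hN k l hlk hk hl hN'
    refine ⟨hdel _ _ hbase ξ hξ _ _ k (hBr.pt k hk).self_of_nhds hN', ?_, ζ,
      LogN.mono h3 (hrk k l N), LogN.mono h4 (hrk k l N)⟩
    rw [hBr.pb ξ hξ k hk, hBr.pb ξ hξ l hl, Real.norm_eq_abs]
    exact h2.trans (hbk k l N)

end Main

/-! ### the bridge of helper578 -/

theorem brg_of {R : H95.Region} {m : ∀ k, Fin (R.n k + 1)} {S : L → Bool} {q : Co R m} {O : One}
    {Θ : Gauge} (hΘ : ∀ j ξ S e v, Θ.θ j ξ S e v = th O j ξ S e v)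
    (h : H578.Brd S (posE R m) (shE R m S) q) (t : Bool) : Brg R m O Θ S t q where
  mem := h.mem
  smb := h.contDiffAt_b
  smP := fun k hk => h.contDiffAt_PX hk
  pt := fun k hk => h.pt hk
  leg := fun ξ hξ k => by
    have h1 := h.leg_eq O hξ (t := t) k
    unfold leg
    rw [hΘ, h1]
    rfl
  pb := fun ξ hξ k hk v => by
    have h1 := h.pb_eq O hξ (t := t) (k := k) hk
    exact congrArg (fun f : Co R m →L[ℝ] ℝ => f v) h1

/-! ### the inputs -/

open H469.Sep (cmp lgL PT)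

/-- (F1), helper469: marks of different components are not near -/
def InF1 : Prop := ∀ R m S, FarOk R S → ∀ (B : Set (W R m).Fr) (p : Co R m), Gen R m S B p →
  (∀ k, 0 < p.2.2.1 k) → ∀ i j : L, cmp R m B p i ≠ cmp R m B p j →
    ∀ᶠ N : ℝ in atTop, ∀ c ≤ (1 / 16 : ℝ), ¬ Nr c (posE R m ((W R m).dpt B N p)).1
      (PT R m S ((W R m).dpt B N p) i) (PT R m S ((W R m).dpt B N p) j)

/-- (F2), helper149: marks of the same component have the same limit -/
def InF2 (κ : Fin 3 → Fin 3 → ℝ) : Prop := ∀ R m S, FarOk R S → ∀ (B : Set (W R m).Fr)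
  (p : Co R m), Gen R m S B p → (∀ k, 0 < p.2.2.1 k) → ∀ ξ, IsCl ξ → ∀ i j : L,
    cmp R m B p i = cmp R m B p j → ∀ d : BDir R m, d.ok R m B →
      lgL κ R m B p ξ i d = lgL κ R m B p ξ j d

/-- (B5), helper442: near marks of one component move rigidly -/
def InB5 : Prop := ∀ R m S, FarOk R S → ∀ (B : Set (W R m).Fr) (p : Co R m), Gen R m S B p →
  (∀ k, 0 < p.2.2.1 k) → ∀ (t : Bool) (k l : Fin 7), cmp R m B p (k, t) = cmp R m B p (l, t) →
    ∀ d : BDir R m, d.ok R m B →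
      Rig R m S B p t k l fun N => d.vec R m B ((W R m).dpt B N p)

theorem sepa_of (hF : InF1) {R : H95.Region} {m : ∀ k, Fin (R.n k + 1)} {S : L → Bool}
    {B : Set (W R m).Fr} {p : Co R m} (hS : FarOk R S) (hG : Gen R m S B p)
    (hy : ∀ k, 0 < p.2.2.1 k) {t : Bool} {k l : Fin 7}
    (h : cmp R m B p (k, t) ≠ cmp R m B p (l, t)) : Sepa R m S B p t k l := by
  filter_upwards [hF R m S hS B p hG hy (k, t) (l, t) h] with N hN _ _
  exact hN (rad k) ((H578.rad_le k).trans (by norm_num))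

/-! ### the limits -/

section Lim

variable {κ : Fin 3 → Fin 3 → ℝ} {O : One} {Θ : Gauge}

/-- the limits of the legs before the recursion -/
theorem tendsto_lgP (hA : AsyL κ (lgP O)) {R : H95.Region} {m : ∀ k, Fin (R.n k + 1)}
    {S : L → Bool} {B : Set (W R m).Fr} {p : Co R m} (hS : FarOk R S) (hG : Gen R m S B p)
    (hy : ∀ k, 0 < p.2.2.1 k) (j : L) {ξ : Fin 6 → ℝ} (hξ : IsCl ξ) (d : BDir R m)
    (hd : d.ok R m B) :
    Tendsto (fun N : ℝ => d.sca R m N * lgP O R m S j ξ ((W R m).dpt B N p)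
      (d.vec R m B ((W R m).dpt B N p))) atTop (𝓝 (lgL κ R m B p ξ j d)) := by
  rcases h : R.pl j with k | b
  · rw [H469.Sep.lgL_neck h]
    exact hA.limN R m S hS B p hG hy j k h ξ hξ d hd
  · rw [H469.Sep.lgL_core h]
    exact hA.limC R m S hS B p hG hy j b h ξ hξ d hd

/-- the leg of the gauge from the leg of the one mark form -/
theorem tendsto_leg_of (hV : Vert O) (hA0 : H778.InA0)
    (hΘ : ∀ j ξ S e v, Θ.θ j ξ S e v = th O j ξ S e v) (hF : InF1)
    {R : H95.Region} {m : ∀ k, Fin (R.n k + 1)}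
    {S : L → Bool} {B : Set (W R m).Fr} {p : Co R m} (hS : FarOk R S) (hG : Gen R m S B p)
    (hy : ∀ k, 0 < p.2.2.1 k) (j : L) {ξ : Fin 6 → ℝ} (hξ : IsCl ξ) {w : ℝ → Co R m}
    {sca : ℝ → ℝ} (h0 : ∀ᶠ N in atTop, 0 ≤ sca N) (h1 : ∀ᶠ N in atTop, sca N ≤ N)
    (hR : ∀ k l : Fin 7, cmp R m B p (k, j.2) = cmp R m B p (l, j.2) →
      Rig R m S B p j.2 k l w ∧
      Tendsto (fun N => sca N * (lgP O R m S (k, j.2) ξ ((W R m).dpt B N p) (w N) -
        lgP O R m S (l, j.2) ξ ((W R m).dpt B N p) (w N))) atTop (𝓝 0)) {a : ℝ}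
    (hl : Tendsto (fun N => sca N * lgP O R m S j ξ ((W R m).dpt B N p) (w N)) atTop (𝓝 a)) :
    Tendsto (fun N => sca N * leg R m Θ S j ξ ((W R m).dpt B N p) (w N)) atTop (𝓝 a) := by
  obtain ⟨N₁, -, hN₁⟩ := hA0
  obtain ⟨k, t⟩ := j
  have hB : ∀ q, Adm R m S N₁ q → Brg R m O Θ S t q := fun q hq => brg_of hΘ (hN₁ R m S hS q hq) t
  have h2 := tendsto_gM (t := t) hS hG hy hξ hV hB h0 h1 (fun k l _ => by
    by_cases hc : cmp R m B p (k, t) = cmp R m B p (l, t)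
    · exact Or.inr (hR k l hc)
    · exact Or.inl (sepa_of hF hS hG hy hc)) k
  have h3 := hl.add h2
  rw [add_zero] at h3
  refine h3.congr' ?_
  filter_upwards [H422.gen_adm R m S hS B p hG hy N₁] with N hN
  rw [(hB _ hN).leg ξ hξ k, _root_.add_apply, mul_add]

theorem sca_nonneg {R : H95.Region} {m : ∀ k, Fin (R.n k + 1)} (d : BDir R m) :
    ∀ᶠ N : ℝ in atTop, 0 ≤ d.sca R m N := by
  filter_upwards [eventually_ge_atTop 0] with N hN
  cases d <;> simp [BDir.sca, hN]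

theorem sca_le {R : H95.Region} {m : ∀ k, Fin (R.n k + 1)} (d : BDir R m) :
    ∀ᶠ N : ℝ in atTop, d.sca R m N ≤ N := by
  filter_upwards [eventually_ge_atTop 1] with N hN
  cases d <;> simp [BDir.sca, hN]

/-- **the limits of the legs of the gauge** -/
theorem tendsto_leg (hA : AsyL κ (lgP O)) (hV : Vert O) (hA0 : H778.InA0)
    (hΘ : ∀ j ξ S e v, Θ.θ j ξ S e v = th O j ξ S e v) (hF : InF1) (hF2 : InF2 κ)
    (h5 : InB5) {R : H95.Region} {m : ∀ k, Fin (R.n k + 1)}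
    {S : L → Bool} {B : Set (W R m).Fr} {p : Co R m} (hS : FarOk R S) (hG : Gen R m S B p)
    (hy : ∀ k, 0 < p.2.2.1 k) (j : L) {ξ : Fin 6 → ℝ} (hξ : IsCl ξ) (d : BDir R m)
    (hd : d.ok R m B) :
    Tendsto (fun N : ℝ => d.sca R m N * leg R m Θ S j ξ ((W R m).dpt B N p)
      (d.vec R m B ((W R m).dpt B N p))) atTop (𝓝 (lgL κ R m B p ξ j d)) := by
  refine tendsto_leg_of hV hA0 hΘ hF hS hG hy j hξ (sca_nonneg d) (sca_le d)
    (fun k l hc => ⟨h5 R m S hS B p hG hy j.2 k l hc d hd, ?_⟩)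
    (tendsto_lgP hA hS hG hy j hξ d hd)
  have h1 := (tendsto_lgP hA hS hG hy (k, j.2) hξ d hd).sub
    (tendsto_lgP hA hS hG hy (l, j.2) hξ d hd)
  rw [hF2 R m S hS B p hG hy ξ hξ _ _ hc d hd, sub_self] at h1
  refine h1.congr fun N => ?_
  ring

/-- the field `limN` -/
theorem limN (hA : AsyL κ (lgP O)) (hV : Vert O) (hA0 : H778.InA0)
    (hΘ : ∀ j ξ S e v, Θ.θ j ξ S e v = th O j ξ S e v) (hF : InF1) (hF2 : InF2 κ)
    (h5 : InB5) : ∀ R m S, FarOk R S → ∀ (B : Set (W R m).Fr) (p : Co R m), Gen R m S B p →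
    (∀ k, 0 < p.2.2.1 k) → ∀ (j : L) (k : Fin 3) (h : R.pl j = Sum.inl k) (ξ : Fin 6 → ℝ),
    IsCl ξ → ∀ d : BDir R m, d.ok R m B →
    Tendsto (fun N : ℝ => d.sca R m N * leg R m Θ S j ξ ((W R m).dpt B N p)
      (d.vec R m B ((W R m).dpt B N p))) atTop
      (𝓝 (legN κ R m ξ p.2.2.1 p.2.2.2.1 k (depl R m B p h)
        (wreg.LX R.Cm R.n m k (rkF R h)) d)) := by
  intro R m S hS B p hG hy j k h ξ hξ d hd
  rw [← H469.Sep.lgL_neck h]
  exact tendsto_leg hA hV hA0 hΘ hF hF2 h5 hS hG hy j hξ d hd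

/-- the field `limC` -/
theorem limC (hA : AsyL κ (lgP O)) (hV : Vert O) (hA0 : H778.InA0)
    (hΘ : ∀ j ξ S e v, Θ.θ j ξ S e v = th O j ξ S e v) (hF : InF1) (hF2 : InF2 κ)
    (h5 : InB5) : ∀ R m S, FarOk R S → ∀ (B : Set (W R m).Fr) (p : Co R m), Gen R m S B p →
    (∀ k, 0 < p.2.2.1 k) → ∀ (j : L) (b : Bool), R.pl j = Sum.inr b → ∀ ξ : Fin 6 → ℝ,
    IsCl ξ → ∀ d : BDir R m, d.ok R m B →
    Tendsto (fun N : ℝ => d.sca R m N * leg R m Θ S j ξ ((W R m).dpt B N p)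
      (d.vec R m B ((W R m).dpt B N p))) atTop
      (𝓝 (legC κ R m ξ p.2.2.1 p.2.2.2.1 b d)) := by
  intro R m S hS B p hG hy j b h ξ hξ d hd
  rw [← H469.Sep.lgL_core h]
  exact tendsto_leg hA hV hA0 hΘ hF hF2 h5 hS hG hy j hξ d hd

/-- the field `lim0` -/
theorem lim0 (hA : AsyL κ (lgP O)) (hV : Vert O) (hA0 : H778.InA0)
    (hΘ : ∀ j ξ S e v, Θ.θ j ξ S e v = th O j ξ S e v) (hF : InF1)
    (h5 : InB5) : ∀ R m S, FarOk R S → ∀ (B : Set (W R m).Fr) (p : Co R m), Gen R m S B p →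
    (∀ k, 0 < p.2.2.1 k) → ∀ (j : L) (ξ : Fin 6 → ℝ), IsCl ξ → (∀ k, bt ξ k = 0) →
    (∀ f ∈ B, Tendsto (fun N : ℝ => N * leg R m Θ S j ξ ((W R m).dpt B N p)
      ((W R m).vec (.ph f))) atTop (𝓝 0)) ∧
    ∀ l, Tendsto (fun N : ℝ => N * leg R m Θ S j ξ ((W R m).dpt B N p)
      ((W R m).vec (.al l))) atTop (𝓝 0) := by
  intro R m S hS B p hG hy j ξ hξ hb
  constructor
  · intro f hf
    refine tendsto_leg_of (sca := fun N => N) (w := fun _ => (W R m).vec (.ph f)) hV hA0 hΘ hF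
      hS hG hy j hξ (eventually_ge_atTop 0) (Eventually.of_forall fun N => le_rfl)
      (fun k l hc => ⟨h5 R m S hS B p hG hy j.2 k l hc (.ph f) hf, ?_⟩)
      ((hA.lim0 R m S hS B p hG hy j ξ hξ hb).1 f hf)
    have h1 := ((hA.lim0 R m S hS B p hG hy (k, j.2) ξ hξ hb).1 f hf).sub
      ((hA.lim0 R m S hS B p hG hy (l, j.2) ξ hξ hb).1 f hf)
    rw [sub_zero] at h1
    exact h1.congr fun N => by ring
  · intro i
    refine tendsto_leg_of (sca := fun N => N) (w := fun _ => (W R m).vec (.al i)) hV hA0 hΘ hF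
      hS hG hy j hξ (eventually_ge_atTop 0) (Eventually.of_forall fun N => le_rfl)
      (fun k l hc => ⟨h5 R m S hS B p hG hy j.2 k l hc (.al i) trivial, ?_⟩)
      ((hA.lim0 R m S hS B p hG hy j ξ hξ hb).2 i)
    have h1 := ((hA.lim0 R m S hS B p hG hy (k, j.2) ξ hξ hb).2 i).sub
      ((hA.lim0 R m S hS B p hG hy (l, j.2) ξ hξ hb).2 i)
    rw [sub_zero] at h1
    exact h1.congr fun N => by ring

end Lim

end Vale.Agent.P273.H768.T2

end
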