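import Vale.Agent.P273.H768.Theta
import Vale.Agent.P273.H599.Glued
import Vale.Agent.P273.H503.Top

/-!
The glued families are stable; they exist for the theta graphs.
-/

noncomputable section

namespace Vale.Agent.P273.H768

open Set Sum
open H837 (Coord pt Hol1)

variable {L V E : Type} {m : ℕ} {h : (E × Bool) ⊕ L → V}

/-- **Existence of the stable glued family** over the base of any coordinates of a connected graph
without loops, with the strong properties of the normalization `g`: the topology and the holomorphic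
functions of the total space are those of the quotient. -/
theorem exists_stable [Finite E] [Finite L] [Finite V] [Nonempty V] (c : Coord h m)
    (hl : ∀ y : E × Bool, h (inl (fl y)) ≠ h (inl y)) (hc : GConn h) :
    ∃ (C : H183.Fam L m) (g : V → OnePoint ℂ → (Fin m → ℂ) → C.X), C.IsStable ∧ C.B = c.base ∧
    (∀ v, ContinuousOn (fun u : OnePoint ℂ × (Fin m → ℂ) => g v u.1 u.2) (univ ×ˢ c.base)) ∧
    (∀ p, ∃ v z, g v z (C.π p) = p) ∧
    (∀ b ∈ c.base,
      (∀ v z, C.π (g v z b) = b) ∧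
      (∀ v z v' z', g v z b = g v' z' b ↔ v = v' ∧ z = z' ∨ ∃ (e : E) (s : Bool),
        (v = h (inl (e, s)) ∧ z = pt b (c.c (inl (e, s)))) ∧
          v' = h (inl (e, !s)) ∧ z' = pt b (c.c (inl (e, !s)))) ∧
      (∀ v z f, C.hol f (g v z b) → Hol1 (fun z b => f (g v z b)) z b) ∧
      ∀ x, C.s x b = g (h (inr x)) (pt b (c.c (inr x))) b) ∧
    (∀ U : Set C.X, (∀ v, IsOpen {u : OnePoint ℂ × (Fin m → ℂ) | u.2 ∈ c.base ∧
      g v u.1 u.2 ∈ U}) → IsOpen U) ∧
    ∀ f p, C.hol f p ↔ ∀ v z, g v z (C.π p) = p → Hol1 (fun z b => f (g v z b)) z (C.π p) := by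
  obtain ⟨C, g, h1, h2, h3, h4, h5, h6, h7⟩ := exists_glued c hl hc inferInstance
  have hg : c.IsGlued C := ⟨h2, g, h3, fun p _ => h4 p, h5⟩
  exact ⟨C, g, h1.isStable fun b hb D hD p hp f hf =>
    H599.glued_field_zero h1.2.2.2.2.1 hg hb hD p hp f hf, h2, h3, h4, h5, h6, h7⟩

theorem exists_isGlued [Finite E] [Finite L] [Finite V] [Nonempty V] (c : Coord h m)
    (hl : ∀ y : E × Bool, h (inl (fl y)) ≠ h (inl y)) (hc : GConn h) :
    ∃ C : H183.Fam L m, C.IsStable ∧ c.IsGlued C := by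
  obtain ⟨C, g, h1, h2, h3, h4, h5, -, -⟩ := exists_stable c hl hc
  exact ⟨C, h1, h2, g, h3, fun p _ => h4 p, h5⟩

/-- **Row Exist.** -/
theorem exist : H503.Exist := fun e p q σ hp hq => by
  obtain ⟨c⟩ := thE_coord e σ hp hq
  obtain ⟨C, h1, h2⟩ := exists_isGlued c (thE_loop e p q σ) (thE_conn e σ p q)
  exact ⟨c, C, h1, h2⟩

end Vale.Agent.P273.H768

end
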