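import Vale.Agent.P273.H768.GFam
import Vale.Agent.P273.H837.Strata

/-!
The glued family of a graph with rational vertices over the base of a system of coordinates.
-/

noncomputable section

namespace Vale.Agent.P273.H768

open Set Topology Filter OnePoint Sum
open H837 (Coord pt Hol1)
open H183 (inf)

/-- All of `Fam.IsStable` except that there are no vector fields. -/
def PreStable {L : Type} {m : ℕ} (C : H183.Fam L m) : Prop :=
  IsOpen C.B ∧ T2Space C.X ∧ (∀ p, C.π p ∈ C.B) ∧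
  (∀ K ⊆ C.B, IsCompact K → IsCompact (C.π ⁻¹' K)) ∧
  (∀ p, ∃ U x y t, p ∈ U ∧ H183.IsChart C.π C.hol U x y t) ∧
  (∀ b ∈ C.B, IsConnected (C.fib b) ∧
    (∀ i, C.π (C.s i b) = b ∧ ContinuousAt (C.s i) b ∧
      (∀ f, C.hol f (C.s i b) → AnalyticAt ℂ (fun b' => f (C.s i b')) b) ∧
      (∀ j, C.s i b = C.s j b → i = j) ∧
      ∀ U x y t, H183.IsChart C.π C.hol U x y t → C.s i b ∈ U →
        x (C.s i b) ≠ 0 ∨ y (C.s i b) ≠ 0))

theorem PreStable.isStable {L : Type} {m : ℕ} {C : H183.Fam L m} (h : PreStable C)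
    (hf : ∀ b ∈ C.B, ∀ D, C.IsField b D → ∀ p ∈ C.fib b, ∀ f, C.hol f p → D f p = 0) :
    C.IsStable :=
  ⟨h.1, h.2.1, h.2.2.1, h.2.2.2.1, h.2.2.2.2.1, fun b hb =>
    ⟨(h.2.2.2.2.2 b hb).1, (h.2.2.2.2.2 b hb).2, hf b hb⟩⟩

/-- The graph is connected. -/
def GConn {V I L : Type} (h : (I × Bool) ⊕ L → V) : Prop :=
  ∀ v v', Relation.ReflTransGen
    (fun v v' => ∃ y : I × Bool, h (inl y) = v ∧ h (inl (fl y)) = v') v v'

namespace GC

variable {L V I : Type} {m : ℕ} (G : GC L V I m)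
variable [TopologicalSpace V] [DiscreteTopology V] [Finite I]

omit [TopologicalSpace V] [DiscreteTopology V] [Finite I] in
theorem sm_mark (i : L) {b : Fin m → ℂ} (hb : b ∈ G.B) :
    G.Sm (G.h (inr i)) (G.ps (inr i) b) b := fun y hy =>
  G.dist _ _ hy.symm (by simp) b hb

theorem fam_pre [Finite V] [Nonempty V] (hG : GConn G.h) : PreStable G.fam := by
  refine ⟨G.B_open, ?_, G.π_mem, ?_, G.exists_chart, ?_⟩
  · exact inferInstanceAs (T2Space G.gl.Sp)
  · intro K hK hK'
    replace hK : K ⊆ G.B := hK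
    have h1 : IsCompact ((↑) ⁻¹' K : Set G.B) := by
      rw [Subtype.isCompact_iff, Subtype.image_preimage_coe, inter_eq_right.2 hK]
      exact hK'
    exact G.gl.pr_proper h1
  · intro b hb
    refine ⟨?_, fun i => ⟨G.π_Q hb, ?_, ?_, ?_, ?_⟩⟩
    · have h1 := G.gl.fib_conn hG ⟨b, hb⟩
      have h2 : G.gl.pr ⁻¹' {⟨b, hb⟩} = {p : G.X | G.π p = b} := by
        ext e
        exact Subtype.ext_iff
      rw [h2] at h1
      exact h1
    · have h1 : ContinuousAt (fun u : OnePoint ℂ × (Fin m → ℂ) => G.Q (G.h (inr i)) u.1 u.2)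
          (G.ps (inr i) b, b) :=
        (G.Q_contOn _).continuousAt ((isOpen_univ.prod G.B_open).mem_nhds ⟨trivial, hb⟩)
      exact ContinuousAt.comp_of_eq (f := fun b : Fin m → ℂ => (G.ps (inr i) b, b)) h1
        (((G.ps_contOn (inr i)).continuousAt (G.B_open.mem_nhds hb)).prodMk continuousAt_id) rfl
    · intro f hf
      have h1 := (G.hol_sm hb (G.sm_mark i hb)).1 hf
      exact AnalyticAt.comp_of_eq
        (g := fun u : (Fin m → ℂ) × ℂ => f (G.Q (G.h (inr i)) (emb (G.s (inr i)) u.2) u.1))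
        (f := fun b : Fin m → ℂ => (b, G.a (inr i) b)) h1
        (analyticAt_id.prod (G.a_an _ b hb)) rfl
    · intro j hj
      obtain ⟨h1, h2⟩ := G.Q_sm hb (G.sm_mark i hb) hj
      by_contra hne
      exact G.dist (inr i) (inr j) h1.symm (fun h => hne (inr_injective h)) b hb h2.symm
    · intro U x y t hc hp
      exact G.not_node hb (G.sm_mark i hb) hc hp

omit [TopologicalSpace V] [DiscreteTopology V] [Finite I] in
/-- `hol` in terms of `Hol1`. -/
theorem hol_iff (f : G.X → ℂ) (p : G.X) : G.hol f p ↔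
    ∀ v z, G.Q v z (G.π p) = p → Hol1 (fun z b => f (G.Q v z b)) z (G.π p) := by
  have key : ∀ (v : V) (s : Bool) (w : ℂ) (b : Fin m → ℂ), G.An f v s b w ↔
      AnalyticAt ℂ (fun u : ℂ × (Fin m → ℂ) => f (G.Q v (emb s u.1) u.2)) (w, b) := by
    intro v s w b
    constructor
    · intro h
      exact AnalyticAt.comp_of_eq
        (g := fun u : (Fin m → ℂ) × ℂ => f (G.Q v (emb s u.2) u.1))
        (f := fun u : ℂ × (Fin m → ℂ) => (u.2, u.1)) h (analyticAt_snd.prod analyticAt_fst) rfl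
    · intro h
      exact AnalyticAt.comp_of_eq
        (g := fun u : ℂ × (Fin m → ℂ) => f (G.Q v (emb s u.1) u.2))
        (f := fun u : (Fin m → ℂ) × ℂ => (u.2, u.1)) h (analyticAt_snd.prod analyticAt_fst) rfl
  constructor
  · intro h v z hz
    refine ⟨?_, ?_⟩
    · rintro w rfl
      have := (key _ _ _ _).1 (h v false w (by rw [emb_false]; exact hz))
      simpa only [emb_false] using this
    · rintro rfl
      have := (key _ _ _ _).1 (h v true 0 (by rw [emb_true_zero]; exact hz))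
      simpa only [emb_true] using this
  · intro h v s w hw
    have h1 := h v _ hw
    cases s
    · rw [key]
      simp only [emb_false] at h1 ⊢
      exact h1.1 w rfl
    · by_cases h0 : w = 0
      · subst h0
        rw [key]
        simp only [emb_true] at h1 ⊢
        exact h1.2 (by simp [inf])
      · have h2 : G.An f v false (G.π p) w⁻¹ := by
          rw [key]
          simp only [emb_false]
          exact h1.1 w⁻¹ (emb_true_ne h0)
        have h3 := G.An_flip (inv_ne_zero h0) h2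
        simpa using h3

omit [Finite I] in
theorem open_of {U : Set G.X} (h : ∀ v, IsOpen {u : OnePoint ℂ × (Fin m → ℂ) | u.2 ∈ G.B ∧
    G.Q v u.1 u.2 ∈ U}) : IsOpen U := by
  rw [← G.gl.q_quot.isOpen_preimage]
  have : G.gl.q ⁻¹' U = ⋃ v, {p | p.1 = v} ∩
      (fun p : V × OnePoint ℂ × G.B => (p.2.1, (p.2.2 : Fin m → ℂ))) ⁻¹'
        {u : OnePoint ℂ × (Fin m → ℂ) | u.2 ∈ G.B ∧ G.Q v u.1 u.2 ∈ U} := by
    ext ⟨v, z, b⟩
    simp only [mem_preimage, mem_iUnion, mem_inter_iff, mem_ofPred_eq, exists_eq_left', b.2,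
      true_and, G.Q_eq b.2]
  rw [this]
  exact isOpen_iUnion fun v => ((isOpen_discrete {v}).preimage continuous_fst).inter
    ((h v).preimage (by fun_prop))

end GC

variable {L V E : Type} {m : ℕ} {h : (E × Bool) ⊕ L → V}

/-- The complex number in the coordinate. -/
def nb (b : Fin m → ℂ) : Fin 3 ⊕ Fin m → ℂ := Sum.elim ![0, 1, 0] b

open Classical in
theorem emb_nb (b : Fin m → ℂ) (k : Fin 3 ⊕ Fin m) :
    emb (decide (k = inl 2)) (nb b k) = pt b k := by
  rcases k with k | k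
  · fin_cases k <;> simp [pt, nb, emb_false]
  · simp [pt, nb, emb_false]

theorem nb_an (k : Fin 3 ⊕ Fin m) (b : Fin m → ℂ) :
    AnalyticAt ℂ (fun b : Fin m → ℂ => nb b k) b := by
  rcases k with k | k
  · exact analyticAt_const
  · exact (ContinuousLinearMap.proj (R := ℂ) (φ := fun _ : Fin m => ℂ) k).analyticAt b

theorem pt_cont (k : Fin 3 ⊕ Fin m) : Continuous fun b : Fin m → ℂ => pt b k := by
  rcases k with k | k
  · exact continuous_const
  · exact continuous_coe.comp (continuous_apply k)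

theorem base_open [Finite E] [Finite L] (c : Coord h m) : IsOpen c.base := by
  have : c.base = ⋂ y, ⋂ y', {b | h y = h y' → pt b (c.c y) = pt b (c.c y') → y = y'} := by
    ext b
    simp [Coord.base]
  rw [this]
  refine isOpen_iInter_of_finite fun y => isOpen_iInter_of_finite fun y' => ?_
  by_cases h1 : h y = h y' ∧ y ≠ y'
  · have : {b : Fin m → ℂ | h y = h y' → pt b (c.c y) = pt b (c.c y') → y = y'} =
        {b | pt b (c.c y) ≠ pt b (c.c y')} := by
      ext b
      simp [h1]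
    rw [this]
    exact isOpen_ne_fun (pt_cont _) (pt_cont _)
  · have : {b : Fin m → ℂ | h y = h y' → pt b (c.c y) = pt b (c.c y') → y = y'} = univ := by
      refine eq_univ_of_forall fun b h2 _ => ?_
      by_contra h3
      exact h1 ⟨h2, h3⟩
    rw [this]
    exact isOpen_univ

theorem base_ne (c : Coord h m) : c.base.Nonempty := by
  refine ⟨fun j => (j : ℂ) + 2, fun y y' h1 h2 => ?_⟩
  have hb : Function.Injective (pt fun j : Fin m => ((j : ℕ) : ℂ) + 2) := by
    have h01 : ∀ j : ℕ, ((j : ℂ) + 2) ≠ 0 := fun j => by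
      have : ((j : ℂ) + 2) = ((j + 2 : ℕ) : ℂ) := by push_cast; ring
      rw [this]
      exact Nat.cast_ne_zero.2 (by omega)
    have h11 : ∀ j : ℕ, ((j : ℂ) + 2) ≠ 1 := fun j h => by
      have : ((j + 2 : ℕ) : ℂ) = ((1 : ℕ) : ℂ) := by push_cast; exact h
      have := Nat.cast_injective this
      omega
    intro k k' hk
    rcases k with k | k <;> rcases k' with k' | k'
    · fin_cases k <;> fin_cases k' <;> simp_all [pt]
    · exfalso
      fin_cases k
      · exact h01 k' (by simpa [pt] using hk.symm)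
      · exact h11 k' (by simpa [pt] using hk.symm)
      · simp [pt] at hk
    · exfalso
      fin_cases k'
      · exact h01 k (by simpa [pt] using hk)
      · exact h11 k (by simpa [pt] using hk)
      · simp [pt] at hk
    · have : ((k : ℕ) : ℂ) = ((k' : ℕ) : ℂ) := by simpa [pt] using hk
      have := Nat.cast_injective this
      exact congrArg inr (Fin.ext this)
  have h3 := hb h2
  rcases h4 : c.c y with i | j
  · exact (c.const (h y) i).unique ⟨rfl, h4⟩ ⟨h1.symm, by rw [← h3, h4]⟩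
  · exact (c.coord j).unique h4 (by rw [← h3, h4])

open Classical in
/-- The gluing data of a graph with coordinates. -/
def ofCoord [Finite E] [Finite L] (c : Coord h m)
    (hl : ∀ y : E × Bool, h (inl (fl y)) ≠ h (inl y)) : GC L V E m where
  B := c.base
  B_open := base_open c
  B_ne := base_ne c
  h := h
  s y := decide (c.c y = inl 2)
  a y b := nb b (c.c y)
  a_an y b _ := nb_an _ b
  dist y y' h1 h2 b hb h3 := by
    rw [emb_nb, emb_nb] at h3
    exact h2 (hb y y' h1 h3)
  loop := hl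

section
variable [Finite E] [Finite L] (c : Coord h m)
    (hl : ∀ y : E × Bool, h (inl (fl y)) ≠ h (inl y))

theorem ofCoord_ps (y : (E × Bool) ⊕ L) (b : Fin m → ℂ) :
    (ofCoord c hl).ps y b = pt b (c.c y) := emb_nb _ _

/-- **Existence of the glued family.** -/
theorem exists_glued [Finite V] (hl : ∀ y : E × Bool, h (inl (fl y)) ≠ h (inl y))
    (hc : GConn h) (hV : Nonempty V) :
    ∃ (C : H183.Fam L m) (g : V → OnePoint ℂ → (Fin m → ℂ) → C.X), PreStable C ∧ C.B = c.base ∧
    (∀ v, ContinuousOn (fun u : OnePoint ℂ × (Fin m → ℂ) => g v u.1 u.2) (univ ×ˢ c.base)) ∧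
    (∀ p, ∃ v z, g v z (C.π p) = p) ∧
    (∀ b ∈ c.base,
      (∀ v z, C.π (g v z b) = b) ∧
      (∀ v z v' z', g v z b = g v' z' b ↔ v = v' ∧ z = z' ∨ ∃ (e : E) (s : Bool),
        (v = h (inl (e, s)) ∧ z = pt b (c.c (inl (e, s)))) ∧
          v' = h (inl (e, !s)) ∧ z' = pt b (c.c (inl (e, !s)))) ∧
      (∀ v z f, C.hol f (g v z b) → Hol1 (fun z b => f (g v z b)) z b) ∧
      ∀ x, C.s x b = g (h (inr x)) (pt b (c.c (inr x))) b) ∧
    (∀ U : Set C.X, (∀ v, IsOpen {u : OnePoint ℂ × (Fin m → ℂ) | u.2 ∈ c.base ∧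
      g v u.1 u.2 ∈ U}) → IsOpen U) ∧
    ∀ f p, C.hol f p ↔ ∀ v z, g v z (C.π p) = p → Hol1 (fun z b => f (g v z b)) z (C.π p) := by
  let _ : TopologicalSpace V := ⊥
  have : DiscreteTopology V := ⟨rfl⟩
  refine ⟨(ofCoord c hl).fam, (ofCoord c hl).Q, (ofCoord c hl).fam_pre hc, rfl,
    (ofCoord c hl).Q_contOn, fun p => ?_, fun b hb => ⟨fun v z => (ofCoord c hl).π_Q hb, ?_, ?_,
    ?_⟩, fun U => (ofCoord c hl).open_of, (ofCoord c hl).hol_iff⟩
  · obtain ⟨v, z, h1⟩ := (ofCoord c hl).Q_surj p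
    exact ⟨v, z, h1.symm⟩
  · intro v z v' z'
    refine ((ofCoord c hl).Q_iff hb).trans ?_
    simp only [ofCoord_ps]
    refine or_congr Iff.rfl ⟨?_, ?_⟩
    · rintro ⟨⟨e, s⟩, h1, h2⟩
      exact ⟨e, s, h1, h2⟩
    · rintro ⟨e, s, h1, h2⟩
      exact ⟨⟨e, s⟩, h1, h2⟩
  · intro v z f hf
    have h1 := ((ofCoord c hl).hol_iff f _).1 hf v z (by rw [(ofCoord c hl).π_Q hb])
    rwa [(ofCoord c hl).π_Q hb] at h1
  · intro x
    change (ofCoord c hl).Q _ _ b = _
    rw [ofCoord_ps]
    rfl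

end

end Vale.Agent.P273.H768

end
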