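import Vale.Agent.P273.H768.GC

/-!
Charts of a glued family.
-/

noncomputable section

namespace Vale.Agent.P273.H768

open Set Topology Filter OnePoint Sum

/-- The topological condition of a chart from an open embedding. -/
theorem isOpen_iff_of_emb {X : Type} [TopologicalSpace X] {m : ℕ} {π : X → Fin m → ℂ} {U : Set X}
    {x y : X → ℂ} {t : (Fin m → ℂ) → ℂ} (hU : IsOpen U) (hφ : ∀ p ∈ U, x p * y p = t (π p))
    (he : IsOpenEmbedding fun p : U => (⟨(π p, x p, y p), hφ p p.2⟩ :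
      {w : (Fin m → ℂ) × ℂ × ℂ // w.2.1 * w.2.2 = t w.1})) (V : Set X) (hV : V ⊆ U) :
    IsOpen V ↔ ∃ W : Set ((Fin m → ℂ) × ℂ × ℂ), IsOpen W ∧
      (fun p => (π p, x p, y p)) '' V = {w ∈ W | w.2.1 * w.2.2 = t w.1} := by
  have h1 : IsOpen V ↔ IsOpen ((↑) ⁻¹' V : Set U) := by
    constructor
    · exact fun h => h.preimage continuous_subtype_val
    · intro h
      have := hU.isOpenMap_subtype_val _ h
      rwa [Subtype.image_preimage_coe, inter_eq_self_of_subset_right hV] at this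
  rw [h1, he.isOpen_iff_image_isOpen, isOpen_induced_iff]
  constructor
  · rintro ⟨W, hW, h⟩
    refine ⟨W, hW, ?_⟩
    ext w
    constructor
    · rintro ⟨p, hp, rfl⟩
      refine ⟨?_, hφ p (hV hp)⟩
      have : (⟨(π p, x p, y p), hφ p (hV hp)⟩ :
          {w : (Fin m → ℂ) × ℂ × ℂ // w.2.1 * w.2.2 = t w.1}) ∈
          (Subtype.val ⁻¹' W : Set {w : (Fin m → ℂ) × ℂ × ℂ // w.2.1 * w.2.2 = t w.1}) := by
        rw [h]
        exact ⟨⟨p, hV hp⟩, hp, rfl⟩
      exact this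
    · rintro ⟨h2, h3⟩
      have : (⟨w, h3⟩ : {w : (Fin m → ℂ) × ℂ × ℂ // w.2.1 * w.2.2 = t w.1}) ∈
          (Subtype.val ⁻¹' W : Set {w : (Fin m → ℂ) × ℂ × ℂ // w.2.1 * w.2.2 = t w.1}) := h2
      rw [h] at this
      obtain ⟨p, hp, h4⟩ := this
      exact ⟨p, hp, congrArg Subtype.val h4⟩
  · rintro ⟨W, hW, h⟩
    refine ⟨W, hW, ?_⟩
    ext ⟨w, hw⟩
    constructor
    · intro h2
      have : w ∈ {w ∈ W | w.2.1 * w.2.2 = t w.1} := ⟨h2, hw⟩
      rw [← h] at this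
      obtain ⟨p, hp, rfl⟩ := this
      exact ⟨⟨p, hV hp⟩, hp, rfl⟩
    · rintro ⟨p, hp, h4⟩
      have : w ∈ {w ∈ W | w.2.1 * w.2.2 = t w.1} := by
        rw [← h]
        exact ⟨p, hp, congrArg Subtype.val h4⟩
      exact this.1

namespace GC

variable {L V I : Type} {m : ℕ} (G : GC L V I m)
variable [TopologicalSpace V] [DiscreteTopology V] [Finite I]

omit [DiscreteTopology V] [Finite I] in
theorem π_cont : Continuous G.π := continuous_subtype_val.comp G.gl.pr_cont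

omit [DiscreteTopology V] [Finite I] in
theorem Q_contOn (v : V) :
    ContinuousOn (fun u : OnePoint ℂ × (Fin m → ℂ) => G.Q v u.1 u.2) (univ ×ˢ G.B) := by
  rw [continuousOn_iff_continuous_domRestrict]
  have : (univ ×ˢ G.B).domRestrict (fun u : OnePoint ℂ × (Fin m → ℂ) => G.Q v u.1 u.2) =
      fun u => G.gl.q (v, u.1.1, ⟨u.1.2, u.2.2⟩) := by
    funext u
    exact G.Q_eq u.2.2
  rw [this]
  refine G.gl.q_cont.comp (continuous_const.prodMk ?_)
  exact (continuous_fst.comp continuous_subtype_val).prodMk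
    (Continuous.subtype_mk (continuous_snd.comp continuous_subtype_val) _)

omit [DiscreteTopology V] [Finite I] in
/-- The parametrisation `(b, w) ↦ Q v (emb s (w + c b)) b` is continuous. -/
theorem par_contAt (v : V) (s : Bool) {c : (Fin m → ℂ) → ℂ} {b : Fin m → ℂ} {w : ℂ} (hb : b ∈ G.B)
    (hc : ContinuousAt c b) :
    ContinuousAt (fun u : (Fin m → ℂ) × ℂ => G.Q v (emb s (u.2 + c u.1)) u.1) (b, w) := by
  have h1 : ContinuousAt (fun u : OnePoint ℂ × (Fin m → ℂ) => G.Q v u.1 u.2)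
      (emb s (w + c b), b) :=
    (G.Q_contOn v).continuousAt ((isOpen_univ.prod G.B_open).mem_nhds ⟨trivial, hb⟩)
  have h2 : ContinuousAt (fun u : (Fin m → ℂ) × ℂ => (emb s (u.2 + c u.1), u.1)) (b, w) := by
    refine ContinuousAt.prodMk ?_ continuousAt_fst
    exact (emb_cont s).continuousAt.comp (continuousAt_snd.add
      (hc.comp_of_eq continuousAt_fst rfl))
  exact ContinuousAt.comp_of_eq h1 h2 rfl

/-- The part of the line of `v` where `emb s` is a coordinate and where there is no node, except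
those in `Y`. -/
def Dm (v : V) (s : Bool) (Y : Set (I × Bool)) (z : OnePoint ℂ) (b : Fin m → ℂ) : Prop :=
  z ≠ emb (!s) 0 ∧ ∀ y : I × Bool, G.h (inl y) = v → y ∉ Y → z ≠ G.ps (inl y) b

theorem Dm_open (v : V) (s : Bool) (Y : Set (I × Bool)) :
    IsOpen {p : V × OnePoint ℂ × G.B | p.1 = v ∧ G.Dm v s Y p.2.1 p.2.2} := by
  have : {p : V × OnePoint ℂ × G.B | p.1 = v ∧ G.Dm v s Y p.2.1 p.2.2} =
      {p | p.1 = v} ∩ ({p | p.2.1 ≠ emb (!s) 0} ∩ ⋂ y : I × Bool,
        {p : V × OnePoint ℂ × G.B | (G.h (inl y) = v ∧ y ∉ Y) ∧ p.2.1 = G.ps (inl y) p.2.2}ᶜ) := by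
    ext p
    simp [Dm]
  rw [this]
  refine IsOpen.inter ((isOpen_discrete {v}).preimage continuous_fst) (IsOpen.inter ?_ ?_)
  · exact isOpen_ne_fun (by fun_prop) continuous_const
  · refine isOpen_iInter_of_finite fun y => isOpen_compl_iff.2 ?_
    by_cases hy : G.h (inl y) = v ∧ y ∉ Y
    · simp only [hy, not_false_eq_true, and_self, true_and]
      exact isClosed_eq (by fun_prop) ((G.gl.cont y).comp (by fun_prop))
    · simp only [hy, false_and]
      exact isClosed_empty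

omit [TopologicalSpace V] [DiscreteTopology V] [Finite I] in
/-- Holomorphy in the shifted coordinate. -/
theorem An_shift {f : G.X → ℂ} {v : V} {s : Bool} {c : (Fin m → ℂ) → ℂ} {b : Fin m → ℂ} {w w' : ℂ}
    (hc : AnalyticAt ℂ c b) (hw : w' = w + c b) : G.An f v s b w' ↔
      AnalyticAt ℂ (fun u : (Fin m → ℂ) × ℂ => f (G.Q v (emb s (u.2 + c u.1)) u.1)) (b, w) := by
  subst hw
  have hc' : AnalyticAt ℂ (fun u : (Fin m → ℂ) × ℂ => c u.1) (b, w) :=
    AnalyticAt.comp_of_eq (g := c) (f := fun u : (Fin m → ℂ) × ℂ => u.1) hc analyticAt_fst rfl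
  have hc'' : AnalyticAt ℂ (fun u : (Fin m → ℂ) × ℂ => c u.1) (b, w + c b) :=
    AnalyticAt.comp_of_eq (g := c) (f := fun u : (Fin m → ℂ) × ℂ => u.1) hc analyticAt_fst rfl
  constructor
  · intro h
    exact AnalyticAt.comp_of_eq (g := fun u : (Fin m → ℂ) × ℂ => f (G.Q v (emb s u.2) u.1))
      (f := fun u : (Fin m → ℂ) × ℂ => (u.1, u.2 + c u.1)) h
      (analyticAt_fst.prod (analyticAt_snd.add hc')) rfl
  · intro h
    have := AnalyticAt.comp_of_eq
      (g := fun u : (Fin m → ℂ) × ℂ => f (G.Q v (emb s (u.2 + c u.1)) u.1))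
      (f := fun u : (Fin m → ℂ) × ℂ => (u.1, u.2 - c u.1)) (x := (b, w + c b)) h
      (analyticAt_fst.prod (analyticAt_snd.sub hc'')) (by simp)
    refine this.congr (Eventually.of_forall fun u => ?_)
    simp [Function.comp]

omit [DiscreteTopology V] [Finite I] in
/-- An open set of the model. -/
theorem W_open {T : Set ((Fin m → ℂ) × ℂ × ℂ)} {S : Set (V × OnePoint ℂ × G.B)} (hS : IsOpen S)
    (v : V) (s : Bool) (k : (Fin m → ℂ) × ℂ × ℂ → ℂ) (hk : ContinuousOn k {w | w.1 ∈ G.B}) :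
    IsOpen {w : T | ∃ hb : w.1.1 ∈ G.B, (v, emb s (k w), ⟨w.1.1, hb⟩) ∈ S} := by
  have hB : IsOpen {w : T | w.1.1 ∈ G.B} :=
    G.B_open.preimage (continuous_fst.comp continuous_subtype_val)
  let g : {w : T | w.1.1 ∈ G.B} → V × OnePoint ℂ × G.B :=
    fun w => (v, emb s (k w.1), ⟨w.1.1.1, w.2⟩)
  have hg : Continuous g := by
    refine continuous_const.prodMk (Continuous.prodMk ?_ ?_)
    · refine (emb_cont s).comp ?_
      exact hk.comp_continuous (f := fun w : {w : T | w.1.1 ∈ G.B} => w.1.1)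
        (continuous_subtype_val.comp continuous_subtype_val) fun w => w.2
    · exact Continuous.subtype_mk
        (continuous_fst.comp (continuous_subtype_val.comp continuous_subtype_val)) _
  have := hB.isOpenMap_subtype_val _ (hS.preimage hg)
  convert this using 1
  ext w
  constructor
  · rintro ⟨hb, h⟩
    exact ⟨⟨w, hb⟩, h, rfl⟩
  · rintro ⟨⟨w', hb⟩, h, rfl⟩
    exact ⟨hb, h⟩

/-- The domain of a smooth chart, upstairs. -/
def S1 (v : V) (s : Bool) (c : ℂ) : Set (V × OnePoint ℂ × G.B) :=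
  {p | (p.1 = v ∧ G.Dm v s ∅ p.2.1 p.2.2) ∧ p.2.1 ≠ emb s c}

theorem S1_open (v : V) (s : Bool) (c : ℂ) : IsOpen (G.S1 v s c) :=
  (G.Dm_open v s ∅).inter (isOpen_ne_fun (by fun_prop) continuous_const)

omit [TopologicalSpace V] [DiscreteTopology V] [Finite I] in
theorem S1_nd (v : V) (s : Bool) (c : ℂ) (y : I × Bool) (b : G.B) :
    G.gl.nd y b ∉ G.S1 v s c := by
  rintro ⟨⟨h1, h2⟩, _⟩
  exact h2.2 y h1 (Set.notMem_empty _) rfl

/-- The domain of a smooth chart. -/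
def U1 (v : V) (s : Bool) (c : ℂ) : Set G.X := G.gl.q '' G.S1 v s c

theorem U1_open (v : V) (s : Bool) (c : ℂ) : IsOpen (G.U1 v s c) :=
  G.gl.image_open (fun y b h => absurd h (G.S1_nd v s c y b)) (G.S1_open v s c)

omit [TopologicalSpace V] [DiscreteTopology V] [Finite I] in
theorem U1_pre (v : V) (s : Bool) (c : ℂ) : G.gl.q ⁻¹' G.U1 v s c = G.S1 v s c :=
  G.gl.preim_image fun y b h => absurd h (G.S1_nd v s c y b)

omit [TopologicalSpace V] [DiscreteTopology V] [Finite I] in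
theorem mem_U1 {v : V} {s : Bool} {c : ℂ} {z : OnePoint ℂ} {b : Fin m → ℂ} (hb : b ∈ G.B)
    (h : G.Dm v s ∅ z b) (h' : z ≠ emb s c) : G.Q v z b ∈ G.U1 v s c := by
  rw [G.Q_eq hb]
  exact ⟨_, ⟨⟨rfl, h⟩, h'⟩, rfl⟩

omit [TopologicalSpace V] [DiscreteTopology V] [Finite I] in
theorem U1_elim {v : V} {s : Bool} {c : ℂ} {e : G.X} (h : e ∈ G.U1 v s c) :
    ∃ w b, b ∈ G.B ∧ e = G.Q v (emb s w) b ∧ G.Dm v s ∅ (emb s w) b ∧ w ≠ c := by
  obtain ⟨⟨v', z, b⟩, ⟨⟨h1, h2⟩, h3⟩, rfl⟩ := h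
  obtain rfl : v' = v := h1
  refine ⟨crd s z, b, b.2, ?_, ?_, ?_⟩
  · rw [emb_crd h2.1, G.Q_eq b.2]
  · rw [emb_crd h2.1]; exact h2
  · rintro rfl
    exact h3 (emb_crd h2.1).symm

omit [TopologicalSpace V] [DiscreteTopology V] [Finite I] in
theorem Dm_sm {v : V} {s : Bool} {z : OnePoint ℂ} {b : Fin m → ℂ} (h : G.Dm v s ∅ z b) :
    G.Sm v z b := fun y hy => h.2 y hy (Set.notMem_empty _)

/-- The coordinate of a smooth chart. -/
def x1 (v : V) (s : Bool) (c : ℂ) (e : G.X) : ℂ := crd s (G.zc v e) - c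

omit [TopologicalSpace V] [DiscreteTopology V] [Finite I] in
theorem x1_Q {v : V} {s : Bool} {c : ℂ} {w : ℂ} {b : Fin m → ℂ} (hb : b ∈ G.B) :
    G.x1 v s c (G.Q v (emb s w) b) = w - c := by
  rw [x1, G.zc_Q _ _ hb, crd_emb]

theorem isChart1 (v : V) (s : Bool) (c : ℂ) : H183.IsChart G.π G.hol (G.U1 v s c) (G.x1 v s c)
    (fun e => (G.x1 v s c e)⁻¹) (fun _ => 1) := by
  have hφ : ∀ p ∈ G.U1 v s c, G.x1 v s c p * (G.x1 v s c p)⁻¹ = 1 := by
    intro p hp
    obtain ⟨w, b, hb, rfl, h1, h2⟩ := G.U1_elim hp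
    rw [G.x1_Q hb]
    exact mul_inv_cancel₀ (sub_ne_zero.2 h2)
  have hinv : ∀ p ∈ G.U1 v s c, G.Q v (emb s (G.x1 v s c p + c)) (G.π p) = p := by
    intro p hp
    obtain ⟨w, b, hb, rfl, h1, h2⟩ := G.U1_elim hp
    rw [G.x1_Q hb, G.π_Q hb, sub_add_cancel]
  have hx : ContinuousOn (G.x1 v s c) (G.U1 v s c) := by
    rw [G.gl.q_quot.continuousOn_isOpen_iff (G.U1_open v s c), G.U1_pre]
    have : ContinuousOn (fun p : V × OnePoint ℂ × G.B => crd s p.2.1 - c) (G.S1 v s c) := by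
      intro p hp
      refine ContinuousAt.continuousWithinAt (ContinuousAt.sub ?_ continuousAt_const)
      exact ContinuousAt.comp_of_eq (g := crd s)
        (f := fun p : V × OnePoint ℂ × G.B => p.2.1) (crd_contAt hp.1.2.1) (by fun_prop) rfl
    refine this.congr fun p hp => ?_
    obtain ⟨v', z, b⟩ := p
    obtain rfl : v' = v := hp.1.1
    simp only [Function.comp, x1]
    rw [← G.Q_eq b.2, G.zc_Q _ _ b.2]
  refine ⟨G.U1_open v s c, fun _ _ => analyticAt_const, ?_, ?_, ?_⟩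
  · intro p hp p' hp' h
    simp only [Prod.mk.injEq] at h
    rw [← hinv p hp, ← hinv p' hp', h.1, h.2.1]
  · refine isOpen_iff_of_emb (t := fun _ => 1) (x := G.x1 v s c)
      (y := fun e => (G.x1 v s c e)⁻¹) (G.U1_open v s c) hφ ?_
    refine isOpenEmbedding_of_inv
      (W := {w : {w : (Fin m → ℂ) × ℂ × ℂ | w.2.1 * w.2.2 = 1} |
        ∃ hb : w.1.1 ∈ G.B, (v, emb s (w.1.2.1 + c), ⟨w.1.1, hb⟩) ∈ G.S1 v s c})
      (ψ := fun w => G.Q v (emb s (w.1.2.1 + c)) w.1.1) ?_ ?_ ?_ ?_ ?_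
    · exact G.W_open (G.S1_open v s c) v s (fun w => w.2.1 + c) (by fun_prop)
    · refine Continuous.subtype_mk (Continuous.prodMk ?_ (Continuous.prodMk ?_ ?_)) _
      · exact G.π_cont.comp continuous_subtype_val
      · exact continuousOn_iff_continuous_domRestrict.1 hx
      · refine Continuous.inv₀ (continuousOn_iff_continuous_domRestrict.1 hx) fun e => ?_
        exact left_ne_zero_of_mul_eq_one (hφ e e.2)
    · rintro w ⟨hb, -⟩
      refine ContinuousAt.continuousWithinAt ?_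
      exact ContinuousAt.comp_of_eq
        (f := fun w : {w : (Fin m → ℂ) × ℂ × ℂ | w.2.1 * w.2.2 = 1} => (w.1.1, w.1.2.1))
        (G.par_contAt v s (c := fun _ => c) hb continuousAt_const) (by fun_prop) rfl
    · rintro ⟨e, he⟩
      refine ⟨⟨G.π_mem e, ?_⟩, hinv e he⟩
      obtain ⟨w, b, hb, rfl, h1, h2⟩ := G.U1_elim he
      refine ⟨⟨rfl, ?_⟩, ?_⟩
      · simp only [G.x1_Q hb, G.π_Q hb, sub_add_cancel]
        exact h1
      · simp only [G.x1_Q hb, sub_add_cancel]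
        exact fun h => h2 (emb_inj s h)
    · rintro ⟨⟨b, x, y⟩, hw⟩ ⟨hb, ⟨⟨-, h1⟩, h2⟩⟩
      refine ⟨G.mem_U1 hb h1 h2, ?_⟩
      simp only [Subtype.mk.injEq, Prod.mk.injEq, G.π_Q hb, G.x1_Q hb, add_sub_cancel_right,
        true_and]
      exact inv_eq_of_mul_eq_one_right hw
  · intro p hp f
    obtain ⟨w, b, hb, rfl, h1, h2⟩ := G.U1_elim hp
    rw [G.hol_sm hb (G.Dm_sm h1), G.An_shift (c := fun _ => c) (w := w - c) analyticAt_const
      (by ring), G.π_Q hb, G.x1_Q hb]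
    constructor
    · intro h
      refine ⟨fun u => f (G.Q v (emb s (u.2.1 + c)) u.1), ?_, ?_⟩
      · exact AnalyticAt.comp_of_eq
          (g := fun u : (Fin m → ℂ) × ℂ => f (G.Q v (emb s (u.2 + c)) u.1))
          (f := fun u : (Fin m → ℂ) × ℂ × ℂ => (u.1, u.2.1)) h
          (analyticAt_fst.prod (analyticAt_fst.comp_of_eq analyticAt_snd rfl)) rfl
      · filter_upwards [(G.U1_open v s c).mem_nhds hp] with q hq
        rw [hinv q hq]
    · rintro ⟨g, hg, h⟩
      have h3 := (G.par_contAt v s (c := fun _ => c) (w := w - c) hb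
        continuousAt_const).eventually (by simpa using h)
      have h4 : ∀ᶠ u : (Fin m → ℂ) × ℂ in 𝓝 (b, w - c), u.1 ∈ G.B :=
        continuousAt_fst.eventually (G.B_open.mem_nhds hb)
      have h5 : AnalyticAt ℂ (fun u : (Fin m → ℂ) × ℂ => g (u.1, u.2, u.2⁻¹)) (b, w - c) :=
        AnalyticAt.comp_of_eq (g := g) (f := fun u : (Fin m → ℂ) × ℂ => (u.1, u.2, u.2⁻¹)) hg
          (analyticAt_fst.prod (analyticAt_snd.prod
            (analyticAt_snd.inv (sub_ne_zero.2 h2)))) (by simp only [G.x1_Q hb])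
      refine h5.congr ?_
      filter_upwards [h3, h4] with u hu hu'
      rw [hu, G.π_Q hu', G.x1_Q hu', add_sub_cancel_right]

end GC

end Vale.Agent.P273.H768

end
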