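import Mathlib

/-!
Gluing of finitely many copies of a compact space along finitely many pairs of sections.
-/

noncomputable section

namespace Vale.Agent.P273.H768

open Set Topology Filter

/-- The other half of an edge. -/
def fl {I : Type} (y : I × Bool) : I × Bool := (y.1, !y.2)

@[simp] theorem fl_fl {I : Type} (y : I × Bool) : fl (fl y) = y := by
  rcases y with ⟨i, s⟩; simp [fl]

theorem fl_ne {I : Type} (y : I × Bool) : fl y ≠ y := by
  rcases y with ⟨i, s⟩; simp [fl]

/-- Gluing data: half-edges with their vertices and positions. -/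
structure Glu (V I P B : Type) [TopologicalSpace P] [TopologicalSpace B] where
  /-- the vertex -/
  hv : I × Bool → V
  /-- the position -/
  pos : I × Bool → B → P
  cont : ∀ y, Continuous (pos y)
  dist : ∀ y y', hv y = hv y' → y ≠ y' → ∀ b, pos y b ≠ pos y' b

namespace Glu

variable {V I P B : Type} [TopologicalSpace P] [TopologicalSpace B] (G : Glu V I P B)

/-- the node section -/
def nd (y : I × Bool) (b : B) : V × P × B := (G.hv y, G.pos y b, b)

/-- the gluing relation -/
def Rel (p p' : V × P × B) : Prop :=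
  p = p' ∨ ∃ y b, p = G.nd y b ∧ p' = G.nd (fl y) b

theorem nd_inj {y y' : I × Bool} {b b' : B} (h : G.nd y b = G.nd y' b') : y = y' ∧ b = b' := by
  simp only [nd, Prod.mk.injEq] at h
  obtain ⟨h1, h2, h3⟩ := h
  subst h3
  refine ⟨?_, rfl⟩
  by_contra hne
  exact G.dist y y' h1 hne b h2

theorem rel_equiv : Equivalence G.Rel where
  refl p := Or.inl rfl
  symm := by
    rintro p p' (rfl | ⟨y, b, h1, h2⟩)
    · exact Or.inl rfl
    · exact Or.inr ⟨fl y, b, h2, by simpa using h1⟩
  trans := by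
    rintro p p' p'' (rfl | ⟨y, b, h1, h2⟩) (rfl | ⟨y', b', h3, h4⟩)
    · exact Or.inl rfl
    · exact Or.inr ⟨y', b', h3, h4⟩
    · exact Or.inr ⟨y, b, h1, h2⟩
    · obtain ⟨e1, e2⟩ := G.nd_inj (h2.symm.trans h3)
      subst e1; subst e2
      left
      rw [h1, h4, fl_fl]

/-- the setoid -/
def sd : Setoid (V × P × B) := ⟨G.Rel, G.rel_equiv⟩

/-- The glued space. -/
def Sp : Type := Quotient G.sd

/-- The quotient map. -/
def q (p : V × P × B) : G.Sp := Quotient.mk G.sd p

theorem q_eq {p p' : V × P × B} : G.q p = G.q p' ↔ G.Rel p p' := Quotient.eq (r := G.sd)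

theorem q_surj : Function.Surjective G.q := Quotient.mk_surjective

theorem q_nd (y : I × Bool) (b : B) : G.q (G.nd y b) = G.q (G.nd (fl y) b) :=
  G.q_eq.2 (Or.inr ⟨y, b, rfl, rfl⟩)

/-- Not a node. -/
def Sm (p : V × P × B) : Prop := ∀ y, G.hv y = p.1 → p.2.1 ≠ G.pos y p.2.2

theorem rel_of_sm {p p' : V × P × B} (h : G.Sm p) (hr : G.Rel p p') : p' = p := by
  rcases hr with rfl | ⟨y, b, h1, h2⟩
  · rfl
  · exact absurd (by rw [h1]; rfl) (h y (by rw [h1]; rfl))

theorem q_eq_sm {p p' : V × P × B} (h : G.Sm p) : G.q p = G.q p' ↔ p' = p :=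
  ⟨fun e => G.rel_of_sm h (G.q_eq.1 e), fun e => by rw [e]⟩

theorem not_sm {p : V × P × B} (h : ¬ G.Sm p) : ∃ y, p = G.nd y p.2.2 := by
  simp only [Sm, not_forall, not_not] at h
  obtain ⟨y, h1, h2⟩ := h
  exact ⟨y, by rw [nd, h1, ← h2]⟩

/-- The projection to the base. -/
def pr (e : G.Sp) : B := Quotient.lift (s := G.sd) (fun p : V × P × B => p.2.2) (by
  rintro p p' (rfl | ⟨y, b, h1, h2⟩)
  · rfl
  · simp only [h1, h2, nd]) e

@[simp] theorem pr_q (p : V × P × B) : G.pr (G.q p) = p.2.2 := rfl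

variable [TopologicalSpace V] [DiscreteTopology V] [Finite V] [Finite I]

instance : TopologicalSpace G.Sp := inferInstanceAs (TopologicalSpace (Quotient G.sd))

omit [DiscreteTopology V] [Finite V] [Finite I] in
theorem q_quot : IsQuotientMap G.q := isQuotientMap_quotient_mk'

omit [DiscreteTopology V] [Finite V] [Finite I] in
theorem q_cont : Continuous G.q := G.q_quot.continuous

omit [DiscreteTopology V] [Finite V] [Finite I] in
theorem pr_cont : Continuous G.pr :=
  G.q_quot.continuous_iff.2 (by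
    change Continuous fun p : V × P × B => p.2.2
    fun_prop)

omit [DiscreteTopology V] [Finite V] [Finite I] in
theorem nd_cont (y : I × Bool) : Continuous (G.nd y) := by
  have := G.cont y
  unfold nd
  fun_prop

omit [Finite V] in
theorem q_closed [T2Space P] : IsClosedMap G.q := by
  intro C hC
  rw [← G.q_quot.isClosed_preimage]
  have : G.q ⁻¹' (G.q '' C) = C ∪ ⋃ y : I × Bool,
      {p : V × P × B | p.1 = G.hv y ∧ p.2.1 = G.pos y p.2.2 ∧ G.nd (fl y) p.2.2 ∈ C} := by
    ext p
    simp only [mem_preimage, mem_image, mem_union, mem_iUnion, mem_ofPred_eq]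
    constructor
    · rintro ⟨c, hc, h⟩
      rcases G.q_eq.1 h with rfl | ⟨y, b, h1, h2⟩
      · exact Or.inl hc
      · right
        refine ⟨fl y, by rw [h2]; rfl, by rw [h2]; rfl, ?_⟩
        rw [h2, fl_fl]
        change G.nd y b ∈ C
        rw [← h1]
        exact hc
    · rintro (h | ⟨y, h1, h2, h3⟩)
      · exact ⟨p, h, rfl⟩
      · refine ⟨_, h3, ?_⟩
        rw [← G.q_nd]
        congr 1
        rw [nd, ← h1, ← h2]
  rw [this]
  refine hC.union (isClosed_iUnion_of_finite fun y => ?_)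
  refine IsClosed.inter ?_ (IsClosed.inter ?_ ?_)
  · exact isClosed_eq continuous_fst continuous_const
  · exact isClosed_eq (by fun_prop) ((G.cont y).comp (by fun_prop))
  · exact hC.preimage ((G.nd_cont (fl y)).comp (by fun_prop))

omit [TopologicalSpace V] [DiscreteTopology V] [Finite V] in
theorem q_fib_fin (e : G.Sp) : (G.q ⁻¹' {e}).Finite := by
  obtain ⟨p, rfl⟩ := G.q_surj e
  refine ((Set.finite_singleton p).union
    (Set.finite_range fun y : I × Bool => G.nd (fl y) p.2.2)).subset ?_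
  intro p' hp'
  rcases G.q_eq.1 (show G.q p' = G.q p from hp') with rfl | ⟨y, b, h1, h2⟩
  · exact Or.inl rfl
  · right
    refine ⟨fl y, ?_⟩
    change G.nd (fl (fl y)) p.2.2 = p'
    rw [h1, h2, fl_fl]
    rfl

instance [T2Space P] [T2Space B] : T2Space G.Sp := by
  refine ⟨fun e e' hne => ?_⟩
  have h1 : IsCompact (G.q ⁻¹' {e}) := (G.q_fib_fin e).isCompact
  have h2 : IsCompact (G.q ⁻¹' {e'}) := (G.q_fib_fin e').isCompact
  have hd : Disjoint (G.q ⁻¹' {e}) (G.q ⁻¹' {e'}) := by
    rw [Set.disjoint_left]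
    intro p hp hp'
    exact hne ((show G.q p = e from hp).symm.trans hp')
  obtain ⟨O, O', hO, hO', h3, h4, h5⟩ := SeparatedNhds.of_isCompact_isCompact h1 h2 hd
  refine ⟨(G.q '' Oᶜ)ᶜ, (G.q '' O'ᶜ)ᶜ, (G.q_closed _ hO.isClosed_compl).isOpen_compl,
    (G.q_closed _ hO'.isClosed_compl).isOpen_compl, ?_, ?_, ?_⟩
  · rintro ⟨p, hp, rfl⟩
    exact hp (h3 rfl)
  · rintro ⟨p, hp, rfl⟩
    exact hp (h4 rfl)
  · rw [Set.disjoint_left]
    intro x hx hx'
    obtain ⟨p, rfl⟩ := G.q_surj x
    have a1 : p ∈ O := by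
      by_contra h
      exact hx ⟨p, h, rfl⟩
    have a2 : p ∈ O' := by
      by_contra h
      exact hx' ⟨p, h, rfl⟩
    exact Set.disjoint_left.1 h5 a1 a2

omit [DiscreteTopology V] [Finite I] in
theorem pr_proper [CompactSpace P] {K : Set B} (hK : IsCompact K) : IsCompact (G.pr ⁻¹' K) := by
  have : G.pr ⁻¹' K = G.q '' ((univ : Set V) ×ˢ ((univ : Set P) ×ˢ K)) := by
    ext e
    constructor
    · intro he
      obtain ⟨p, rfl⟩ := G.q_surj e
      exact ⟨p, ⟨trivial, trivial, he⟩, rfl⟩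
    · rintro ⟨p, hp, rfl⟩
      exact hp.2.2
  rw [this]
  exact ((Set.finite_univ.isCompact).prod (isCompact_univ.prod hK)).image G.q_cont

omit [DiscreteTopology V] [Finite V] [Finite I] in
/-- The fibres are connected if the graph is. -/
theorem fib_conn [ConnectedSpace P] [Nonempty V]
    (hG : ∀ v v', Relation.ReflTransGen
      (fun v v' => ∃ y : I × Bool, G.hv y = v ∧ G.hv (fl y) = v') v v') (b : B) :
    IsConnected (G.pr ⁻¹' {b}) := by
  have hU : G.pr ⁻¹' {b} = ⋃ v, (fun z : P => G.q (v, z, b)) '' univ := by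
    ext e
    obtain ⟨⟨v, z, b'⟩, rfl⟩ := G.q_surj e
    simp only [mem_preimage, pr_q, mem_singleton_iff, image_univ, mem_iUnion, mem_range]
    constructor
    · rintro rfl
      exact ⟨v, z, rfl⟩
    · rintro ⟨v', z', h⟩
      have := congrArg G.pr h
      simpa using this.symm
  have hc : ∀ v : V, Continuous fun z : P => G.q (v, z, b) := fun v =>
    G.q_cont.comp (by fun_prop)
  refine ⟨?_, ?_⟩
  · obtain ⟨v⟩ := ‹Nonempty V›
    obtain ⟨z⟩ : Nonempty P := inferInstance
    exact ⟨G.q (v, z, b), by simp⟩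
  · rw [hU]
    refine IsPreconnected.iUnion_of_reflTransGen
      (fun v => isPreconnected_univ.image _ (hc v).continuousOn) fun v v' => ?_
    refine Relation.ReflTransGen.mono ?_ v v' (hG v v')
    rintro a a' ⟨y, rfl, rfl⟩
    refine ⟨G.q (G.nd y b), ⟨G.pos y b, trivial, rfl⟩, ⟨G.pos (fl y) b, trivial, ?_⟩⟩
    exact (G.q_nd y b).symm

omit [Finite V] in
theorem sm_open [T2Space P] : IsOpen {p : V × P × B | G.Sm p} := by
  have : {p : V × P × B | G.Sm p} = ⋂ y : I × Bool,
      {p : V × P × B | G.hv y = p.1 ∧ p.2.1 = G.pos y p.2.2}ᶜ := by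
    ext p
    simp [Sm]
  rw [this]
  refine isOpen_iInter_of_finite fun y => isOpen_compl_iff.2 (IsClosed.inter ?_ ?_)
  · exact isClosed_eq continuous_const continuous_fst
  · exact isClosed_eq (by fun_prop) ((G.cont y).comp (by fun_prop))

omit [TopologicalSpace V] [DiscreteTopology V] [Finite V] [Finite I] in
/-- A set that contains with each node also its other half is saturated. -/
theorem preim_image {S : Set (V × P × B)} (hS : ∀ y b, G.nd y b ∈ S → G.nd (fl y) b ∈ S) :
    G.q ⁻¹' (G.q '' S) = S := by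
  ext p
  constructor
  · rintro ⟨c, hc, h⟩
    rcases G.q_eq.1 h with rfl | ⟨y, b, h1, h2⟩
    · exact hc
    · rw [h2]
      exact hS y b (h1 ▸ hc)
  · intro h
    exact ⟨p, h, rfl⟩

omit [DiscreteTopology V] [Finite V] [Finite I] in
theorem image_open {S : Set (V × P × B)} (hS : ∀ y b, G.nd y b ∈ S → G.nd (fl y) b ∈ S)
    (ho : IsOpen S) : IsOpen (G.q '' S) := by
  rw [← G.q_quot.isOpen_preimage, G.preim_image hS]
  exact ho

end Glu

/-- Criterion for an open embedding by an inverse. -/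
theorem isOpenEmbedding_of_inv {E T : Type*} [TopologicalSpace E] [TopologicalSpace T] {U : Set E}
    {W : Set T} (hW : IsOpen W) {φ : U → T} {ψ : T → E} (hφ : Continuous φ)
    (hψ : ContinuousOn ψ W) (h1 : ∀ e : U, φ e ∈ W ∧ ψ (φ e) = e)
    (h2 : ∀ w ∈ W, ∃ h : ψ w ∈ U, φ ⟨ψ w, h⟩ = w) : IsOpenEmbedding φ := by
  let f : U ≃ₜ W :=
    { toFun := fun e => ⟨φ e, (h1 e).1⟩
      invFun := fun w => ⟨ψ w, (h2 w w.2).1⟩
      left_inv := fun e => Subtype.ext (h1 e).2
      right_inv := fun w => Subtype.ext (h2 w w.2).2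
      continuous_toFun := hφ.subtype_mk _
      continuous_invFun := (continuousOn_iff_continuous_domRestrict.1 hψ).subtype_mk _ }
  exact hW.isOpenEmbedding_subtypeVal.comp f.isOpenEmbedding

end Vale.Agent.P273.H768

end
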