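import Vale.Agent.P273.H183.Fam
import Vale.Agent.P273.H768.Glue

/-!
The two standard parametrisations of the projective line.
-/

noncomputable section

namespace Vale.Agent.P273.H768

open Set Topology Filter OnePoint

/-- `w` for `s = false`, `1/w` for `s = true`. -/
def emb (s : Bool) (w : ℂ) : OnePoint ℂ := if s then H183.inf w else (w : OnePoint ℂ)

/-- The inverse of `emb s`. -/
def crd (s : Bool) (z : OnePoint ℂ) : ℂ := z.elim 0 (fun w => if s then w⁻¹ else w)

theorem emb_false (w : ℂ) : emb false w = (w : OnePoint ℂ) := by simp [emb]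

theorem emb_true (w : ℂ) : emb true w = H183.inf w := by simp [emb]

@[simp] theorem emb_true_zero : emb true 0 = ∞ := by simp [emb, H183.inf]

theorem emb_true_ne {w : ℂ} (h : w ≠ 0) : emb true w = ((w⁻¹ : ℂ) : OnePoint ℂ) := by
  simp [emb, H183.inf, h]

@[simp] theorem crd_coe (s : Bool) (w : ℂ) : crd s (w : OnePoint ℂ) = if s then w⁻¹ else w := rfl

@[simp] theorem crd_infty (s : Bool) : crd s ∞ = 0 := rfl

@[simp] theorem crd_emb (s : Bool) (w : ℂ) : crd s (emb s w) = w := by
  cases s
  · simp [emb]
  · by_cases h : w = 0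
    · subst h
      simp
    · rw [emb_true_ne h]
      simp

theorem emb_inj (s : Bool) : Function.Injective (emb s) := fun a b h => by
  rw [← crd_emb s a, ← crd_emb s b, h]

theorem emb_ne (s : Bool) (w : ℂ) : emb s w ≠ emb (!s) 0 := by
  cases s
  · simp [emb_false]
  · by_cases h : w = 0
    · subst h
      simp [emb_false]
    · rw [emb_true_ne h]
      simp [emb_false, h]

theorem emb_crd {s : Bool} {z : OnePoint ℂ} (h : z ≠ emb (!s) 0) : emb s (crd s z) = z := by
  cases s
  · induction z using OnePoint.rec with
    | infty => simp at h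
    | coe w => simp [emb_false]
  · induction z using OnePoint.rec with
    | infty => simp
    | coe w =>
      have hw : w ≠ 0 := by
        rintro rfl
        simp [emb_false] at h
      rw [crd_coe, if_pos rfl, emb_true_ne (inv_ne_zero hw), inv_inv]

theorem emb_cover (z : OnePoint ℂ) : ∃ s w, emb s w = z := by
  induction z using OnePoint.rec with
  | infty => exact ⟨true, 0, by simp⟩
  | coe w => exact ⟨false, w, by simp [emb]⟩

theorem emb_flip {s : Bool} {w : ℂ} (h : w ≠ 0) : emb (!s) w⁻¹ = emb s w := by
  cases s
  · rw [Bool.not_false, emb_true_ne (inv_ne_zero h), inv_inv, emb_false]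
  · rw [Bool.not_true, emb_true_ne h, emb_false]

theorem emb_eq_flip {s : Bool} {w w' : ℂ} (h : emb s w = emb (!s) w') : w ≠ 0 ∧ w' = w⁻¹ := by
  have hw : w ≠ 0 := by
    rintro rfl
    have := emb_ne (!s) w'
    rw [Bool.not_not] at this
    exact this h.symm
  exact ⟨hw, emb_inj (!s) (h.symm.trans (emb_flip hw).symm)⟩

theorem tendsto_coe_cobounded :
    Tendsto (fun w : ℂ => (w : OnePoint ℂ)) (Bornology.cobounded ℂ) (𝓝 ∞) := by
  have := OnePoint.tendsto_coe_infty (X := ℂ)
  rwa [Filter.coclosedCompact_eq_cocompact, ← Metric.cobounded_eq_cocompact] at this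

theorem emb_cont (s : Bool) : Continuous (emb s) := by
  cases s
  · have : emb false = fun w : ℂ => (w : OnePoint ℂ) := by
      funext w
      simp [emb]
    rw [this]
    exact OnePoint.continuous_coe
  · rw [continuous_iff_continuousAt]
    intro w
    by_cases h : w = 0
    · subst h
      rw [continuousAt_iff_punctured_nhds, emb_true_zero]
      refine (tendsto_coe_cobounded.comp Filter.tendsto_inv₀_nhdsNE_zero).congr' ?_
      filter_upwards [self_mem_nhdsWithin] with u hu
      exact (emb_true_ne hu).symm
    · have : emb true =ᶠ[𝓝 w] fun u => ((u⁻¹ : ℂ) : OnePoint ℂ) := by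
        filter_upwards [isOpen_ne.mem_nhds h] with u hu
        exact emb_true_ne hu
      exact ((OnePoint.continuous_coe.continuousAt (x := w⁻¹)).comp
        (continuousAt_inv₀ h)).congr this.symm

theorem crd_contAt {s : Bool} {z : OnePoint ℂ} (h : z ≠ emb (!s) 0) : ContinuousAt (crd s) z := by
  induction z using OnePoint.rec with
  | infty =>
    cases s
    · simp at h
    · rw [OnePoint.continuousAt_infty', Filter.coclosedCompact_eq_cocompact,
        ← Metric.cobounded_eq_cocompact]
      exact Filter.tendsto_inv₀_cobounded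
  | coe w =>
    rw [OnePoint.continuousAt_coe]
    cases s
    · exact continuousAt_id
    · refine continuousAt_inv₀ ?_
      rintro rfl
      simp [emb_false] at h

theorem dom_open (s : Bool) : IsOpen {z : OnePoint ℂ | z ≠ emb (!s) 0} := isOpen_ne

end Vale.Agent.P273.H768

end
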