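import Vale.Agent.P273.H599.Shrink
import Vale.Agent.P273.H469.Sec
import Vale.Agent.P273.H948.Moves

/-!
Existence of the two moves over a smaller base.
-/

noncomputable section

open Set Filter Topology

namespace Vale.Agent.P273.H768

open Vale.Agent.P273.H948 Vale.Agent.P273.H469 Vale.Agent.P273.H599

variable {m : ℕ} {X₀ : Surf m} {L : Type} {P : L → (Fin m → ℂ) → X₀.X} {A : Set L}

/-- **Existence of a node move.** -/
theorem exists_nodeMove [Finite L] (σ : State X₀ P A) {c : Fin m → ℂ} (hc : c ∈ σ.F.B) {j : L}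
    (hj : j ∉ A) {U : Set σ.F.S.X} {u v : σ.F.S.X → ℂ} {t : (Fin m → ℂ) → ℂ}
    (hm : IsModel σ.F.S.π σ.F.S.hol U u v t) (hx : σ.s j c ∈ U) (hu : u (σ.s j c) = 0)
    (hv : v (σ.s j c) = 0) (hB : ∀ y ∈ U, u y = 0 → v y = 0 → ¬ X₀.SmoothAt (σ.r y))
    (hA : ∀ k ∈ A, σ.s k c ≠ σ.s j c) {μ : L → (Fin m → ℂ) → ℂ}
    (hr : ∀ k, k ≠ j → σ.s k c = σ.s j c → AnalyticAt ℂ (μ k) c ∧
      ∀ᶠ b in 𝓝 c, u (σ.s k b) = μ k b * u (σ.s j b) ∧ v (σ.s j b) = μ k b * v (σ.s k b)) :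
    ∃ (B' : Set (Fin m → ℂ)) (hB' : IsOpen B') (hBB : B' ⊆ σ.F.B)
      (x₀ : (σ.F.shrink B' hB' hBB).S.X) (N : NodeMove (σ.shrink B' hB' hBB x₀) j), c ∈ B' ∧
      N.K = {k | σ.s k c = σ.s j c} ∧ N.D.U = shInc σ.F hB' hBB ⁻¹' U ∧
      N.D.u = u ∘ shInc σ.F hB' hBB ∧ N.D.v = v ∘ shInc σ.F hB' hBB ∧
      ∀ k, k ≠ j → σ.s k c = σ.s j c → N.α k = μ k := by
  classical
  set α : L → (Fin m → ℂ) → ℂ := fun k => if k = j then fun _ => 1 else μ k with hα
  have hαj : α j = fun _ => 1 := by simp [hα]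
  have hαk : ∀ k, k ≠ j → α k = μ k := fun k hk => by simp [hα, hk]
  have e1 : ∀ k, σ.s k c = σ.s j c → ∀ᶠ b in 𝓝 c, σ.s k b ∈ U ∧ AnalyticAt ℂ (α k) b ∧
      u (σ.s k b) = α k b * u (σ.s j b) ∧ v (σ.s j b) = α k b * v (σ.s k b) := by
    intro k hk
    have h1 := eventually_mem σ hc k hm.isOpen (hk.symm ▸ hx)
    by_cases hkj : k = j
    · subst hkj
      filter_upwards [h1] with b hb
      rw [hαj]
      exact ⟨hb, analyticAt_const, (one_mul _).symm, (one_mul _).symm⟩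
    · rw [hαk k hkj]
      filter_upwards [h1, (hr k hkj hk).1.eventually_analyticAt, (hr k hkj hk).2] with b h2 h3 h4
      exact ⟨h2, h3, h4⟩
  have e2 : ∀ᶠ b in 𝓝 c, ∀ k, (σ.s k c = σ.s j c → σ.s k b ∈ U ∧ AnalyticAt ℂ (α k) b ∧
      u (σ.s k b) = α k b * u (σ.s j b) ∧ v (σ.s j b) = α k b * v (σ.s k b)) ∧
      (σ.s k c ≠ σ.s j c → σ.s k b ≠ σ.s j b) := by
    rw [eventually_all]
    intro k
    by_cases hk : σ.s k c = σ.s j c
    · filter_upwards [e1 k hk] with b hb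
      exact ⟨fun _ => hb, fun h => absurd hk h⟩
    · filter_upwards [eventually_ne σ hc k j hk] with b hb
      exact ⟨fun h => absurd h hk, fun _ => hb⟩
  obtain ⟨B', hB', hBB, x₀, hcB, hP⟩ := exists_shrink σ hc e2
  have hU : ∀ b ∈ B', σ.s j b ∈ U := fun b hb => ((hP b hb j).1 rfl).1
  have hπ : ∀ (k : L), ∀ b ∈ B', σ.F.S.π (σ.s k b) = b := fun k b hb =>
    (σ.sec k b (hBB hb)).1
  have hs : ∀ (k : L), ∀ b ∈ B', shInc σ.F hB' hBB ((σ.shrink B' hB' hBB x₀).s k b) = σ.s k b :=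
    fun k b hb => shrink_s_eq σ hB' hBB x₀ k hb
  have hau : ∀ b ∈ B', AnalyticAt ℂ (fun b' => u (σ.s j b')) b := fun b hb =>
    (σ.sec j b (hBB hb)).2.2 u (hm.hol_u (hU b hb))
  have hav : ∀ b ∈ B', AnalyticAt ℂ (fun b' => v (σ.s j b')) b := fun b hb =>
    (σ.sec j b (hBB hb)).2.2 v (hm.hol_v (hU b hb))
  have hmem : ∀ x : (σ.shrink B' hB' hBB x₀).F.S.X, (σ.shrink B' hB' hBB x₀).F.S.π x ∈ B' :=
    fun x => (σ.shrink B' hB' hBB x₀).F.mem x
  have hm' := shrink_model σ hB' hBB x₀ hm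
  let D : NodeData (σ.shrink B' hB' hBB x₀).F.S :=
    { U := shInc σ.F hB' hBB ⁻¹' U
      u := u ∘ shInc σ.F hB' hBB
      v := v ∘ shInc σ.F hB' hBB
      t := t
      τ₀ := fun b => u (σ.s j b)
      τ₁ := fun b => v (σ.s j b)
      mod := hm'
      an₀ := fun x _ => hau _ (hmem x)
      an₁ := fun x _ => hav _ (hmem x)
      fac := fun x _ => by
        filter_upwards [hB'.mem_nhds (hmem x)] with b hb
        have := hm.eqn _ (hU b hb)
        rw [hπ j b hb] at this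
        exact this.symm
      cl := by
        refine closed_node hm' (fun x => (hau _ (hmem x)).continuousAt)
          (fun x => (hav _ (hmem x)).continuousAt) fun x h0 h1 => ?_
        refine ⟨(σ.shrink B' hB' hBB x₀).s j ((σ.shrink B' hB' hBB x₀).F.S.π x), ?_, ?_⟩
        · change shInc σ.F hB' hBB _ ∈ U
          rw [hs j _ (hmem x)]
          exact hU _ (hmem x)
        · simp only [Emap, Function.comp, hs j _ (hmem x), h0, h1]
          rw [((σ.shrink B' hB' hBB x₀).sec j _ (hmem x)).1] }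
  refine ⟨B', hB', hBB, x₀,
    { D := D
      c := c
      K := {k | σ.s k c = σ.s j c}
      α := α
      mem_c := hcB
      jK := rfl
      KA := fun k hk hkA => hA k hkA hk
      α_j := fun b => by rw [hαj]
      α_an := fun k hk b hb => ((hP b hb k).1 hk).2.1
      mem := fun k hk b hb => by
        change shInc σ.F hB' hBB _ ∈ U
        rw [hs k b hb]
        exact ((hP b hb k).1 hk).1
      rel_u := fun k hk b hb => by
        change u (shInc σ.F hB' hBB _) = u (σ.s j b) * α k b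
        rw [hs k b hb, ((hP b hb k).1 hk).2.2.1, mul_comm]
      rel_v := fun k hk b hb => by
        change α k b * v (shInc σ.F hB' hBB _) = v (σ.s j b)
        rw [hs k b hb, ((hP b hb k).1 hk).2.2.2]
      zero₀ := hu
      zero₁ := hv
      node := fun x hx h1 h2 => hB _ hx h1 h2
      off := fun k hk b hb he => (hP b hb k).2 hk
        ((shrink_eq_iff σ hB' hBB x₀ k j hb).1 he) }, hcB, rfl, rfl, rfl, rfl,
    fun k hk _ => hαk k hk⟩

/-- **Existence of a bubble move.** -/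
theorem exists_bubMove [Finite L] (σ : State X₀ P A) {c : Fin m → ℂ} (hc : c ∈ σ.F.B) {i j : L}
    (hi : i ∈ A) (hj : j ∉ A) (e : σ.s i c = σ.s j c)
    (ho : ∀ k, k ≠ i → k ≠ j → σ.s k c ≠ σ.s j c) :
    ∃ (B' : Set (Fin m → ℂ)) (hB' : IsOpen B') (hBB : B' ⊆ σ.F.B)
      (x₀ : (σ.F.shrink B' hB' hBB).S.X) (_ : BubMove (σ.shrink B' hB' hBB x₀) i j), c ∈ B' := by
  classical
  obtain ⟨U, u, t, hx, hco, hm⟩ : ∃ (U : Set σ.F.S.X) (u : σ.F.S.X → ℂ) (t : (Fin m → ℂ) → ℂ),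
      (σ.s j c ∈ U ∧ u (σ.s j c) ≠ 0) ∧ (∃ v, IsModel σ.F.S.π σ.F.S.hol U u v t) ∧ True := by
    obtain ⟨U, u, v, t, hx, hm, h0⟩ := σ.smooth i hi c hc
    rw [e] at hx h0
    rcases h0 with h0 | h0
    · exact ⟨U, u, t, ⟨hx, h0⟩, ⟨v, hm⟩, trivial⟩
    · exact ⟨U, v, t, ⟨hx, h0⟩, ⟨u, swap_model hm⟩, trivial⟩
  obtain ⟨v, hm⟩ := hco
  have hco := coord_u hm
  have e1 : ∀ k, σ.s k c = σ.s j c → ∀ᶠ b in 𝓝 c, σ.s k b ∈ U ∧ u (σ.s k b) ≠ 0 := by
    intro k hk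
    exact eventually_mem σ hc k hco.isOpen (show σ.s k c ∈ {x | x ∈ U ∧ u x ≠ 0} from hk ▸ hx)
  have e2 : ∀ᶠ b in 𝓝 c, ∀ k, k ≠ i → k ≠ j → σ.s k b ≠ σ.s i b ∧ σ.s k b ≠ σ.s j b := by
    rw [eventually_all]
    intro k
    by_cases hk : k ≠ i ∧ k ≠ j
    · filter_upwards [eventually_ne σ hc k j (ho k hk.1 hk.2),
        eventually_ne σ hc k i (by rw [e]; exact ho k hk.1 hk.2)] with b h1 h2 _ _
      exact ⟨h2, h1⟩
    · exact Eventually.of_forall fun b h1 h2 => absurd ⟨h1, h2⟩ hk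
  obtain ⟨B', hB', hBB, x₀, hcB, hP⟩ := exists_shrink σ hc ((e1 i e).and ((e1 j rfl).and e2))
  have hs : ∀ (k : L), ∀ b ∈ B', shInc σ.F hB' hBB ((σ.shrink B' hB' hBB x₀).s k b) = σ.s k b :=
    fun k b hb => shrink_s_eq σ hB' hBB x₀ k hb
  have hau : ∀ (k : L) (b : Fin m → ℂ), b ∈ B' → σ.s k b ∈ U →
      AnalyticAt ℂ (fun b' => u (σ.s k b')) b := fun k b hb hU =>
    (σ.sec k b (hBB hb)).2.2 u (hm.hol_u hU)
  have hi' : ∀ b ∈ B', AnalyticAt ℂ (fun b' => u (σ.s i b')) b := fun b hb =>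
    hau i b hb (hP b hb).1.1
  have hj' : ∀ b ∈ B', AnalyticAt ℂ (fun b' => u (σ.s j b')) b := fun b hb =>
    hau j b hb (hP b hb).2.1.1
  have hmem : ∀ x : (σ.shrink B' hB' hBB x₀).F.S.X, (σ.shrink B' hB' hBB x₀).F.S.π x ∈ B' :=
    fun x => (σ.shrink B' hB' hBB x₀).F.mem x
  have hco' := (coord_u (shrink_model σ hB' hBB x₀ hm)).shift
    (f := fun b => u (σ.s i b)) fun x _ => hi' _ (hmem x)
  have hat : ∀ b ∈ B', AnalyticAt ℂ (fun b' => u (σ.s j b') - u (σ.s i b')) b := fun b hb =>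
    (hj' b hb).sub (hi' b hb)
  have hπ' : ∀ (k : L), ∀ b ∈ B', (σ.shrink B' hB' hBB x₀).F.S.π
      ((σ.shrink B' hB' hBB x₀).s k b) = b := fun k b hb =>
    ((σ.shrink B' hB' hBB x₀).sec k b hb).1
  let D : BubData (σ.shrink B' hB' hBB x₀).F.S :=
    { U := {x | x ∈ shInc σ.F hB' hBB ⁻¹' U ∧ (u ∘ shInc σ.F hB' hBB) x ≠ 0}
      ξ := fun x => (u ∘ shInc σ.F hB' hBB) x - u (σ.s i ((σ.shrink B' hB' hBB x₀).F.S.π x))
      t := fun b => u (σ.s j b) - u (σ.s i b)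
      co := hco'
      an := fun x _ => hat _ (hmem x)
      cl := by
        refine closed_bub hco' (fun x => (hat _ (hmem x)).continuousAt) fun x _ => ?_
        refine ⟨(σ.shrink B' hB' hBB x₀).s i ((σ.shrink B' hB' hBB x₀).F.S.π x), ?_,
          hπ' i _ (hmem x), ?_⟩
        · refine ⟨?_, ?_⟩
          · change shInc σ.F hB' hBB _ ∈ U
            rw [hs i _ (hmem x)]
            exact (hP _ (hmem x)).1.1
          · simp only [Function.comp, hs i _ (hmem x)]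
            exact (hP _ (hmem x)).1.2
        · simp only [Function.comp, hs i _ (hmem x), hπ' i _ (hmem x), sub_self] }
  refine ⟨B', hB', hBB, x₀,
    { D := D
      c := c
      mem_c := hcB
      iA := hi
      jA := hj
      mem_i := fun b hb => ?_
      mem_j := fun b hb => ?_
      ξ_i := fun b hb => ?_
      ξ_j := fun b hb => ?_
      zero := ?_
      off := fun k hk hk' b hb => ⟨fun he => ((hP b hb).2.2 k hk hk').1
        ((shrink_eq_iff σ hB' hBB x₀ k i hb).1 he), fun he => ((hP b hb).2.2 k hk hk').2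
        ((shrink_eq_iff σ hB' hBB x₀ k j hb).1 he)⟩ }, hcB⟩
  · refine ⟨?_, ?_⟩
    · change shInc σ.F hB' hBB _ ∈ U
      rw [hs i b hb]
      exact (hP b hb).1.1
    · simp only [Function.comp, hs i b hb]
      exact (hP b hb).1.2
  · refine ⟨?_, ?_⟩
    · change shInc σ.F hB' hBB _ ∈ U
      rw [hs j b hb]
      exact (hP b hb).2.1.1
    · simp only [Function.comp, hs j b hb]
      exact (hP b hb).2.1.2
  · change (u ∘ shInc σ.F hB' hBB) _ - u (σ.s i _) = 0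
    simp only [Function.comp, hs i b hb, hπ' i b hb, sub_self]
  · change (u ∘ shInc σ.F hB' hBB) _ - u (σ.s i _) = u (σ.s j b) - u (σ.s i b)
    simp only [Function.comp, hs j b hb, hπ' j b hb]
  · change u (σ.s j c) - u (σ.s i c) = 0
    rw [e, sub_self]

end Vale.Agent.P273.H768

end
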