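import Vale.Agent.P273.H768.Emb

/-!
Glued families: projective lines glued along sections, over an open base.
-/

noncomputable section

namespace Vale.Agent.P273.H768

open Set Topology Filter OnePoint Sum

/-- Data of a glued family: a graph `h` with rational vertices, and for each half-edge or leg its
position `emb (s y) (a y b)` on the line of its vertex. -/
structure GC (L V I : Type) (m : ℕ) where
  /-- base -/
  B : Set (Fin m → ℂ)
  B_open : IsOpen B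
  B_ne : B.Nonempty
  /-- graph -/
  h : (I × Bool) ⊕ L → V
  /-- which parametrisation -/
  s : (I × Bool) ⊕ L → Bool
  /-- position in it -/
  a : (I × Bool) ⊕ L → (Fin m → ℂ) → ℂ
  a_an : ∀ y, ∀ b ∈ B, AnalyticAt ℂ (a y) b
  dist : ∀ y y', h y = h y' → y ≠ y' → ∀ b ∈ B, emb (s y) (a y b) ≠ emb (s y') (a y' b)
  loop : ∀ y : I × Bool, h (inl (fl y)) ≠ h (inl y)

namespace GC

variable {L V I : Type} {m : ℕ} (G : GC L V I m)

/-- The position. -/
def ps (y : (I × Bool) ⊕ L) (b : Fin m → ℂ) : OnePoint ℂ := emb (G.s y) (G.a y b)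

theorem ps_contOn (y : (I × Bool) ⊕ L) : ContinuousOn (G.ps y) G.B := fun b hb =>
  ((emb_cont (G.s y)).continuousAt.comp (G.a_an y b hb).continuousAt).continuousWithinAt

/-- The gluing data. -/
def gl : Glu V I (OnePoint ℂ) G.B where
  hv y := G.h (inl y)
  pos y b := G.ps (inl y) b
  cont y := continuousOn_iff_continuous_domRestrict.1 (G.ps_contOn _)
  dist y y' h1 h2 b := G.dist _ _ h1 (by simpa using h2) b b.2

/-- The total space. -/
abbrev X : Type := G.gl.Sp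

/-- A point of the base. -/
def b0 : G.B := ⟨G.B_ne.some, G.B_ne.some_mem⟩

open Classical in
/-- The point with coordinate `z` of the line of `v` over `b`. -/
def Q (v : V) (z : OnePoint ℂ) (b : Fin m → ℂ) : G.X :=
  if hb : b ∈ G.B then G.gl.q (v, z, ⟨b, hb⟩) else G.gl.q (v, z, G.b0)

theorem Q_eq {v : V} {z : OnePoint ℂ} {b : Fin m → ℂ} (hb : b ∈ G.B) :
    G.Q v z b = G.gl.q (v, z, ⟨b, hb⟩) := by
  simp [Q, hb]

/-- The projection. -/
def π (e : G.X) : Fin m → ℂ := (G.gl.pr e : Fin m → ℂ)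

theorem π_mem (e : G.X) : G.π e ∈ G.B := (G.gl.pr e).2

theorem π_Q {v : V} {z : OnePoint ℂ} {b : Fin m → ℂ} (hb : b ∈ G.B) : G.π (G.Q v z b) = b := by
  rw [Q_eq G hb]
  rfl

theorem Q_surj (e : G.X) : ∃ v z, e = G.Q v z (G.π e) := by
  obtain ⟨⟨v, z, b⟩, rfl⟩ := G.gl.q_surj e
  refine ⟨v, z, ?_⟩
  rw [Q_eq G (G.π_mem _)]
  rfl

theorem Q_iff {v v' : V} {z z' : OnePoint ℂ} {b : Fin m → ℂ} (hb : b ∈ G.B) :
    G.Q v z b = G.Q v' z' b ↔ (v = v' ∧ z = z') ∨ ∃ y : I × Bool, (v = G.h (inl y) ∧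
      z = G.ps (inl y) b) ∧ v' = G.h (inl (fl y)) ∧ z' = G.ps (inl (fl y)) b := by
  rw [Q_eq G hb, Q_eq G hb, G.gl.q_eq, Glu.Rel]
  simp only [Glu.nd, Prod.mk.injEq, and_true]
  constructor
  · rintro (h | ⟨y, b', ⟨h1, h2, h3⟩, h4, h5, h6⟩)
    · exact Or.inl h
    · subst h3
      exact Or.inr ⟨y, ⟨h1, h2⟩, h4, h5⟩
  · rintro (h | ⟨y, ⟨h1, h2⟩, h4, h5⟩)
    · exact Or.inl h
    · exact Or.inr ⟨y, ⟨b, hb⟩, ⟨h1, h2, rfl⟩, h4, h5, rfl⟩

theorem Q_inj {v : V} {z z' : OnePoint ℂ} {b : Fin m → ℂ} (hb : b ∈ G.B)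
    (h : G.Q v z b = G.Q v z' b) : z = z' := by
  rcases (G.Q_iff hb).1 h with ⟨_, h⟩ | ⟨y, ⟨h1, _⟩, h2, _⟩
  · exact h
  · exact absurd (h2.symm.trans h1) (G.loop y)

theorem Q_nd (y : I × Bool) {b : Fin m → ℂ} (hb : b ∈ G.B) :
    G.Q (G.h (inl y)) (G.ps (inl y) b) b = G.Q (G.h (inl (fl y))) (G.ps (inl (fl y)) b) b :=
  (G.Q_iff hb).2 (Or.inr ⟨y, ⟨rfl, rfl⟩, rfl, rfl⟩)

/-- Not a node. -/
def Sm (v : V) (z : OnePoint ℂ) (b : Fin m → ℂ) : Prop :=
  ∀ y : I × Bool, G.h (inl y) = v → z ≠ G.ps (inl y) b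

theorem Q_sm {v v' : V} {z z' : OnePoint ℂ} {b : Fin m → ℂ} (hb : b ∈ G.B) (hs : G.Sm v z b)
    (h : G.Q v z b = G.Q v' z' b) : v' = v ∧ z' = z := by
  rcases (G.Q_iff hb).1 h with ⟨h1, h2⟩ | ⟨y, ⟨h1, h2⟩, _⟩
  · exact ⟨h1.symm, h2.symm⟩
  · exact absurd h2 (hs y h1.symm)

/-- On the line of `v`. -/
def On (v : V) (e : G.X) : Prop := ∃ z, G.Q v z (G.π e) = e

open Classical in
/-- The coordinate on the line of `v`. -/
def zc (v : V) (e : G.X) : OnePoint ℂ := if h : G.On v e then h.choose else ∞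

theorem On_Q (v : V) (z : OnePoint ℂ) {b : Fin m → ℂ} (hb : b ∈ G.B) : G.On v (G.Q v z b) :=
  ⟨z, by rw [G.π_Q hb]⟩

@[simp] theorem zc_Q (v : V) (z : OnePoint ℂ) {b : Fin m → ℂ} (hb : b ∈ G.B) :
    G.zc v (G.Q v z b) = z := by
  have h : G.On v (G.Q v z b) := G.On_Q v z hb
  rw [zc, dif_pos h]
  have := h.choose_spec
  generalize h.choose = z' at this ⊢
  rw [G.π_Q hb] at this
  exact G.Q_inj hb this

/-- Holomorphic in the coordinate `emb s`. -/
def An (f : G.X → ℂ) (v : V) (s : Bool) (b : Fin m → ℂ) (w : ℂ) : Prop :=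
  AnalyticAt ℂ (fun u : (Fin m → ℂ) × ℂ => f (G.Q v (emb s u.2) u.1)) (b, w)

/-- The holomorphic functions. -/
def hol (f : G.X → ℂ) (e : G.X) : Prop :=
  ∀ v s w, G.Q v (emb s w) (G.π e) = e → G.An f v s (G.π e) w

theorem An_flip {f : G.X → ℂ} {v : V} {s : Bool} {b : Fin m → ℂ} {w : ℂ} (hw : w ≠ 0)
    (h : G.An f v s b w) : G.An f v (!s) b w⁻¹ := by
  have h2 : AnalyticAt ℂ (fun u : (Fin m → ℂ) × ℂ => (u.1, u.2⁻¹)) (b, w⁻¹) :=
    analyticAt_fst.prod (analyticAt_snd.inv (inv_ne_zero hw))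
  have h3 := AnalyticAt.comp_of_eq (g := fun u : (Fin m → ℂ) × ℂ => f (G.Q v (emb s u.2) u.1))
    (f := fun u : (Fin m → ℂ) × ℂ => (u.1, u.2⁻¹)) (x := (b, w⁻¹)) h h2 (by simp)
  refine h3.congr ?_
  have : ∀ᶠ u : (Fin m → ℂ) × ℂ in 𝓝 (b, w⁻¹), u.2 ≠ 0 :=
    (continuous_snd.continuousAt (x := (b, w⁻¹))).eventually_ne (inv_ne_zero hw)
  filter_upwards [this] with u hu
  simp only [Function.comp]
  rw [← emb_flip (s := s) (inv_ne_zero hu), inv_inv]

theorem An_eq {f : G.X → ℂ} {v : V} {s s' : Bool} {b : Fin m → ℂ} {w w' : ℂ}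
    (he : emb s w = emb s' w') (h : G.An f v s b w) : G.An f v s' b w' := by
  by_cases hs : s' = s
  · subst hs
    rwa [← emb_inj _ he]
  · obtain rfl : s' = !s := by cases s <;> cases s' <;> simp_all
    obtain ⟨h1, rfl⟩ := emb_eq_flip he
    exact G.An_flip h1 h

/-- At a point which is not a node one coordinate is enough. -/
theorem hol_sm {f : G.X → ℂ} {v : V} {s : Bool} {b : Fin m → ℂ} {w : ℂ} (hb : b ∈ G.B)
    (hs : G.Sm v (emb s w) b) : G.hol f (G.Q v (emb s w) b) ↔ G.An f v s b w := by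
  constructor
  · intro h
    have := h v s w (by rw [G.π_Q hb])
    rwa [G.π_Q hb] at this
  · intro h v' s' w' he
    rw [G.π_Q hb] at he ⊢
    obtain ⟨h1, h2⟩ := G.Q_sm hb hs he.symm
    subst h1
    exact G.An_eq h2.symm h

/-- At a node two coordinates are enough. -/
theorem hol_nd {f : G.X → ℂ} (y : I × Bool) {b : Fin m → ℂ} (hb : b ∈ G.B) :
    G.hol f (G.Q (G.h (inl y)) (G.ps (inl y) b) b) ↔
      G.An f (G.h (inl y)) (G.s (inl y)) b (G.a (inl y) b) ∧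
      G.An f (G.h (inl (fl y))) (G.s (inl (fl y))) b (G.a (inl (fl y)) b) := by
  constructor
  · intro h
    constructor
    · have := h (G.h (inl y)) (G.s (inl y)) (G.a (inl y) b) (by rw [G.π_Q hb]; rfl)
      rwa [G.π_Q hb] at this
    · have := h (G.h (inl (fl y))) (G.s (inl (fl y))) (G.a (inl (fl y)) b) (by
        rw [G.π_Q hb, G.Q_nd y hb]; rfl)
      rwa [G.π_Q hb] at this
  · rintro ⟨h1, h2⟩ v' s' w' he
    rw [G.π_Q hb] at he ⊢
    rcases (G.Q_iff hb).1 he with ⟨h3, h4⟩ | ⟨y', ⟨h3, h4⟩, h5, h6⟩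
    · subst h3
      exact G.An_eq h4.symm h1
    · have : fl y' = y := by
        by_contra hne
        exact G.dist (inl y) (inl (fl y')) h5 (fun h => hne (by simpa using h.symm)) b hb h6
      subst this
      rw [fl_fl] at h2
      subst h3
      exact G.An_eq h4.symm h2

end GC

end Vale.Agent.P273.H768

end
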