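import Vale.Agent.P273.H768.Nd

/-!
The glued family as a family of curves: charts, Hausdorff, proper, connected fibres, marks.
-/

noncomputable section

namespace Vale.Agent.P273.H768

open Set Topology Filter OnePoint Sum

namespace GC

variable {L V I : Type} {m : ℕ} (G : GC L V I m)

/-- The glued family. -/
def fam [TopologicalSpace V] : H183.Fam L m where
  B := G.B
  X := G.X
  π := G.π
  hol := G.hol
  s x b := G.Q (G.h (inr x)) (G.ps (inr x) b) b

variable [TopologicalSpace V] [DiscreteTopology V] [Finite I]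

theorem exists_chart (p : G.X) : ∃ U x y t, p ∈ U ∧ H183.IsChart G.π G.hol U x y t := by
  obtain ⟨v, z, hp⟩ := G.Q_surj p
  have hb := G.π_mem p
  generalize G.π p = b at hp hb
  subst hp
  by_cases h : G.Sm v z b
  · obtain ⟨s, w, rfl⟩ := emb_cover z
    refine ⟨_, _, _, _, ?_, G.isChart1 v s (w - 1)⟩
    refine G.mem_U1 hb ⟨emb_ne s w, fun y hy _ => h y hy⟩ fun h' => ?_
    have := emb_inj s h'
    exact one_ne_zero (α := ℂ) (by linear_combination this)
  · simp only [Sm, not_forall, not_not] at h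
    obtain ⟨y, rfl, rfl⟩ := h
    refine ⟨_, _, _, _, ?_, G.isChart2 y⟩
    have h1 := G.mem_U2 (y := y) (x := 0) hb (by rw [zero_add]; exact G.D_ps y hb)
    rwa [R, zero_add] at h1

/-- A smooth point is not a node of any chart. -/
theorem not_node {v : V} {s : Bool} {w : ℂ} {b : Fin m → ℂ} (hb : b ∈ G.B)
    (hs : G.Sm v (emb s w) b) {U : Set G.X} {x y : G.X → ℂ} {t : (Fin m → ℂ) → ℂ}
    (hc : H183.IsChart G.π G.hol U x y t) (hp : G.Q v (emb s w) b ∈ U) :
    x (G.Q v (emb s w) b) ≠ 0 ∨ y (G.Q v (emb s w) b) ≠ 0 := by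
  by_contra hcon
  push Not at hcon
  obtain ⟨hx0, hy0⟩ := hcon
  obtain ⟨hU, -, -, himg, hhol⟩ := hc
  have hxy : ∀ q ∈ U, x q * y q = t (G.π q) := by
    intro q hq
    obtain ⟨W, -, hW⟩ := (himg U subset_rfl).1 hU
    have : (G.π q, x q, y q) ∈ (fun p => (G.π p, x p, y p)) '' U := ⟨q, hq, rfl⟩
    rw [hW] at this
    exact this.2
  set p := G.Q v (emb s w) b with hpdef
  have hπ : G.π p = b := G.π_Q hb
  have ht0 : t b = 0 := by rw [← hπ, ← hxy p hp, hx0, zero_mul]
  -- the coordinates are holomorphic at `p`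
  have hpar : ContinuousAt (fun z : ℂ => G.Q v (emb s z) b) w := by
    have h1 := G.par_contAt v s (c := fun _ => 0) (w := w) hb continuousAt_const
    simp only [add_zero] at h1
    exact ContinuousAt.comp_of_eq (f := fun z : ℂ => (b, z)) h1 (by fun_prop) rfl
  have han : ∀ f, G.hol f p → AnalyticAt ℂ (fun z : ℂ => f (G.Q v (emb s z) b)) w := by
    intro f hf
    have h1 := (G.hol_sm hb hs).1 hf
    exact AnalyticAt.comp_of_eq (g := fun u : (Fin m → ℂ) × ℂ => f (G.Q v (emb s u.2) u.1))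
      (f := fun z : ℂ => (b, z)) h1 (analyticAt_const.prod analyticAt_id) rfl
  have hX : AnalyticAt ℂ (fun z : ℂ => x (G.Q v (emb s z) b)) w :=
    han x ((hhol p hp x).2 ⟨fun u => u.2.1, analyticAt_fst.comp_of_eq analyticAt_snd rfl, Eventually.of_forall fun _ => rfl⟩)
  have hY : AnalyticAt ℂ (fun z : ℂ => y (G.Q v (emb s z) b)) w :=
    han y ((hhol p hp y).2 ⟨fun u => u.2.2, analyticAt_snd.comp_of_eq analyticAt_snd rfl, Eventually.of_forall fun _ => rfl⟩)
  have hprod : ∀ᶠ z in 𝓝 w, x (G.Q v (emb s z) b) * y (G.Q v (emb s z) b) = 0 := by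
    filter_upwards [hpar.eventually (hU.mem_nhds hp)] with z hz
    rw [hxy _ hz, G.π_Q hb, ht0]
  -- a neighbourhood on which the function `f` vanishes along the fibre is impossible
  have key : ∀ f : G.X → ℂ, (∀ᶠ z in 𝓝 w, f (G.Q v (emb s z) b) = 0) →
      ∀ g : ℂ → (Fin m → ℂ) × ℂ × ℂ, Continuous g → (∀ ε, (g ε).1 = b) → g 0 = (b, 0, 0) →
      (∀ ε, (g ε).2.1 * (g ε).2.2 = 0) →
      (∀ ε q, (G.π q, x q, y q) = g ε → f q = ε) → False := by
    intro f hf g hg hg1 hg0 hg2 hfg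
    obtain ⟨O, hO1, hO2, hO3⟩ := eventually_nhds_iff.1 hf
    set S : Set (V × OnePoint ℂ × G.B) :=
      {p | p.1 = v ∧ G.Dm v s ∅ p.2.1 p.2.2} ∩ {p | crd s p.2.1 ∈ O ∨ p.2.1 = emb (!s) 0} with hS
    have hSo : IsOpen S := by
      rw [isOpen_iff_mem_nhds]
      rintro ⟨v', z', b'⟩ ⟨⟨h1, h2⟩, h3⟩
      simp only at h1 h2
      have h4 : crd s z' ∈ O := by
        rcases h3 with h3 | h3
        · exact h3
        · exact absurd h3 h2.1
      have h5 : ∀ᶠ p : V × OnePoint ℂ × G.B in 𝓝 (v', z', b'), crd s p.2.1 ∈ O :=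
        (ContinuousAt.comp_of_eq (g := crd s) (f := fun p : V × OnePoint ℂ × G.B => p.2.1)
          (crd_contAt h2.1) (by fun_prop) rfl).eventually (hO2.mem_nhds h4)
      filter_upwards [h5, (G.Dm_open v s ∅).mem_nhds (x := (v', z', b')) ⟨h1, h2⟩] with q hq hq'
      exact ⟨hq', Or.inl hq⟩
    have hSn : ∀ y' b', G.gl.nd y' b' ∈ S → G.gl.nd (fl y') b' ∈ S := fun y' b' h =>
      absurd rfl (h.1.2.2 y' h.1.1 (Set.notMem_empty _))
    have hN : IsOpen (U ∩ G.gl.q '' S) := hU.inter (G.gl.image_open hSn hSo)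
    have hpN : p ∈ U ∩ G.gl.q '' S := by
      refine ⟨hp, ?_⟩
      rw [hpdef, G.Q_eq hb]
      refine ⟨_, ⟨⟨rfl, emb_ne s w, fun y' hy' _ => hs y' hy'⟩, Or.inl ?_⟩, rfl⟩
      simp only [crd_emb]
      exact hO3
    obtain ⟨W, hW, hWe⟩ := (himg _ inter_subset_left).1 hN
    have h0 : g 0 ∈ W := by
      have : (G.π p, x p, y p) ∈ (fun p => (G.π p, x p, y p)) '' (U ∩ G.gl.q '' S) :=
        ⟨p, hpN, rfl⟩
      rw [hWe] at this
      rw [hg0]
      rw [hπ, hx0, hy0] at this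
      exact this.1
    have h1 : ∀ᶠ ε in 𝓝 (0 : ℂ), g ε ∈ W := hg.continuousAt.eventually (hW.mem_nhds h0)
    obtain ⟨ε, h2, h3⟩ : ∃ ε : ℂ, g ε ∈ W ∧ ε ≠ 0 := by
      have h4 : ∀ᶠ ε in 𝓝[≠] (0 : ℂ), g ε ∈ W ∧ ε ≠ 0 :=
        (h1.filter_mono nhdsWithin_le_nhds).and (eventually_mem_nhdsWithin)
      exact h4.exists
    have h5 : g ε ∈ {w ∈ W | w.2.1 * w.2.2 = t w.1} := ⟨h2, by rw [hg2, hg1, ht0]⟩
    rw [← hWe] at h5
    obtain ⟨q, ⟨hqU, ⟨⟨v', z', b'⟩, ⟨⟨h6, h7⟩, h8⟩, rfl⟩⟩, h9⟩ := h5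
    simp only at h6 h7 h9
    subst h6
    have h10 : (b' : Fin m → ℂ) = b := by
      have := congrArg Prod.fst h9
      rw [hg1] at this
      exact this
    have h11 : b' = ⟨b, hb⟩ := Subtype.ext h10
    subst h11
    have h12 := hfg ε _ h9
    have h13 : crd s z' ∈ O := by
      rcases h8 with h8 | h8
      · exact h8
      · exact absurd h8 h7.1
    have h14 := hO1 _ h13
    rw [emb_crd h7.1, G.Q_eq hb, h12] at h14
    exact h3 h14
  rcases hY.eventually_eq_zero_or_eventually_ne_zero with h | h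
  · exact key y h (fun ε => (b, 0, ε)) (by fun_prop) (fun _ => rfl) rfl (fun ε => by simp)
      fun ε q h => by simpa using congrArg (fun u => u.2.2) h
  · have h1 : ∀ᶠ z in 𝓝 w, x (G.Q v (emb s z) b) = 0 := by
      have h2 : ∀ᶠ z in 𝓝[≠] w, x (G.Q v (emb s z) b) = 0 := by
        filter_upwards [h, hprod.filter_mono nhdsWithin_le_nhds] with z h3 h4
        exact (mul_eq_zero.1 h4).resolve_right h3
      rw [eventually_nhdsWithin_iff] at h2
      filter_upwards [h2] with z hz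
      by_cases hzw : z = w
      · subst hzw
        exact hx0
      · exact hz hzw
    exact key x h1 (fun ε => (b, ε, 0)) (by fun_prop) (fun _ => rfl) rfl (fun ε => by simp)
      fun ε q h => by simpa using congrArg (fun u => u.2.1) h

end GC

end Vale.Agent.P273.H768

end
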