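import Vale.Agent.P273.H768.Ch

/-!
Node charts of a glued family.
-/

noncomputable section

namespace Vale.Agent.P273.H768

open Set Topology Filter OnePoint Sum

namespace GC

variable {L V I : Type} {m : ℕ} (G : GC L V I m)

/-- The vertex of a half-edge. -/
abbrev hv (y : I × Bool) : V := G.h (inl y)

/-- The parametrisation of a half-edge. -/
abbrev sy (y : I × Bool) : Bool := G.s (inl y)

/-- The position of a half-edge. -/
abbrev ay (y : I × Bool) : (Fin m → ℂ) → ℂ := G.a (inl y)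

open Classical in
/-- The coordinate at the half-edge `y`. -/
def κ (y : I × Bool) (e : G.X) : ℂ :=
  if G.On (G.hv y) e then crd (G.sy y) (G.zc (G.hv y) e) - G.ay y (G.π e) else 0

/-- The point with coordinate `x` at the half-edge `y`. -/
def R (y : I × Bool) (b : Fin m → ℂ) (x : ℂ) : G.X := G.Q (G.hv y) (emb (G.sy y) (x + G.ay y b)) b

theorem R_zero (y : I × Bool) {b : Fin m → ℂ} (hb : b ∈ G.B) : G.R y b 0 = G.R (fl y) b 0 := by
  simp only [R, zero_add]
  exact G.Q_nd y hb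

/-- The good domain at the half-edge `y`. -/
def D (y : I × Bool) (z : OnePoint ℂ) (b : Fin m → ℂ) : Prop := G.Dm (G.hv y) (G.sy y) {y} z b

theorem D_ps (y : I × Bool) {b : Fin m → ℂ} (hb : b ∈ G.B) : G.D y (G.ps (inl y) b) b := by
  refine ⟨emb_ne _ _, fun y' h1 h2 => ?_⟩
  exact G.dist _ _ h1.symm (fun h => h2 (by simpa using h.symm)) b hb

theorem κ_R {y : I × Bool} {b : Fin m → ℂ} {x : ℂ} (hb : b ∈ G.B) : G.κ y (G.R y b x) = x := by
  unfold κ R
  rw [if_pos (G.On_Q _ _ hb), G.zc_Q _ _ hb, crd_emb, G.π_Q hb, add_sub_cancel_right]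

theorem κ_fl {y : I × Bool} {z : OnePoint ℂ} {b : Fin m → ℂ} (hb : b ∈ G.B) (h : G.D y z b) :
    G.κ (fl y) (G.Q (G.hv y) z b) = 0 := by
  unfold κ
  split_ifs with ho
  · obtain ⟨z', hz'⟩ := ho
    rw [G.π_Q hb] at hz'
    rcases (G.Q_iff hb).1 hz' with ⟨h1, -⟩ | ⟨y', ⟨h1, h2⟩, h3, h4⟩
    · exact absurd h1 (G.loop y)
    · have h5 : fl y' = y := by
        by_contra hne
        exact h.2 (fl y') h3.symm hne h4
      subst h5
      rw [fl_fl] at *
      rw [← hz', G.zc_Q _ _ hb, G.π_Q hb, h2, ps, crd_emb, sub_self]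
  · rfl

theorem π_R {y : I × Bool} {b : Fin m → ℂ} {x : ℂ} (hb : b ∈ G.B) : G.π (G.R y b x) = b :=
  G.π_Q hb

/-- One side of the domain of a node chart, upstairs. -/
def S2 (y : I × Bool) : Set (V × OnePoint ℂ × G.B) := {p | p.1 = G.hv y ∧ G.D y p.2.1 p.2.2}

theorem S2_nd {y y' : I × Bool} {b : G.B} (h : G.gl.nd y' b ∈ G.S2 y) : y' = y := by
  by_contra hne
  exact h.2.2 y' h.1 hne rfl

theorem nd_S2 (y : I × Bool) (b : G.B) : G.gl.nd y b ∈ G.S2 y := ⟨rfl, G.D_ps y b.2⟩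

theorem S2_sat (y y' : I × Bool) (b : G.B) (h : G.gl.nd y' b ∈ G.S2 y ∪ G.S2 (fl y)) :
    G.gl.nd (fl y') b ∈ G.S2 y ∪ G.S2 (fl y) := by
  rcases h with h | h
  · rw [G.S2_nd h]
    exact Or.inr (G.nd_S2 (fl y) b)
  · rw [G.S2_nd h, fl_fl]
    exact Or.inl (G.nd_S2 y b)

/-- The domain of a node chart. -/
def U2 (y : I × Bool) : Set G.X := G.gl.q '' (G.S2 y ∪ G.S2 (fl y))

theorem U2_pre (y : I × Bool) : G.gl.q ⁻¹' G.U2 y = G.S2 y ∪ G.S2 (fl y) :=
  G.gl.preim_image (G.S2_sat y)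

theorem U2_fl (y : I × Bool) : G.U2 (fl y) = G.U2 y := by
  rw [U2, U2, fl_fl, union_comm]

theorem U2_elim {y : I × Bool} {e : G.X} (h : e ∈ G.U2 y) :
    (∃ b x, b ∈ G.B ∧ e = G.R y b x ∧ G.D y (emb (G.sy y) (x + G.ay y b)) b) ∨
    (∃ b x, b ∈ G.B ∧ e = G.R (fl y) b x ∧
      G.D (fl y) (emb (G.sy (fl y)) (x + G.ay (fl y) b)) b) := by
  obtain ⟨⟨v, z, b⟩, h1 | h1, rfl⟩ := h
  · left
    obtain ⟨h1, h2⟩ := h1
    simp only at h1 h2
    subst h1
    have h3 : emb (G.sy y) (crd (G.sy y) z - G.ay y b + G.ay y b) = z := by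
      rw [sub_add_cancel, emb_crd h2.1]
    refine ⟨b, crd (G.sy y) z - G.ay y b, b.2, ?_, ?_⟩
    · rw [R, h3, G.Q_eq b.2]
    · rw [h3]; exact h2
  · right
    obtain ⟨h1, h2⟩ := h1
    simp only at h1 h2
    subst h1
    have h3 : emb (G.sy (fl y)) (crd (G.sy (fl y)) z - G.ay (fl y) b + G.ay (fl y) b) = z := by
      rw [sub_add_cancel, emb_crd h2.1]
    refine ⟨b, crd (G.sy (fl y)) z - G.ay (fl y) b, b.2, ?_, ?_⟩
    · rw [R, h3, G.Q_eq b.2]
    · rw [h3]; exact h2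

theorem mem_U2 {y : I × Bool} {b : Fin m → ℂ} {x : ℂ} (hb : b ∈ G.B)
    (h : G.D y (emb (G.sy y) (x + G.ay y b)) b) : G.R y b x ∈ G.U2 y := by
  rw [R, G.Q_eq hb]
  exact ⟨_, Or.inl ⟨rfl, h⟩, rfl⟩

theorem D_of_mem {y : I × Bool} {b : Fin m → ℂ} {x : ℂ} (hb : b ∈ G.B) (h : G.R y b x ∈ G.U2 y) :
    G.D y (emb (G.sy y) (x + G.ay y b)) b := by
  rw [R, G.Q_eq hb] at h
  have h2 : (G.hv y, emb (G.sy y) (x + G.ay y b), (⟨b, hb⟩ : G.B)) ∈ G.gl.q ⁻¹' G.U2 y := h
  rw [G.U2_pre] at h2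
  rcases h2 with h2 | h2
  · exact h2.2
  · exact absurd h2.1.symm (G.loop y)

open Classical in
/-- The inverse of the node chart. -/
def ψ (y : I × Bool) (w : (Fin m → ℂ) × ℂ × ℂ) : G.X :=
  if w.2.2 = 0 then G.R y w.1 w.2.1 else G.R (fl y) w.1 w.2.2

theorem ψ_zero (y : I × Bool) {b : Fin m → ℂ} (hb : b ∈ G.B) (u : ℂ) :
    G.ψ y (b, 0, u) = G.R (fl y) b u := by
  unfold ψ
  split_ifs with h
  · simp only at h
    rw [h]
    exact G.R_zero y hb
  · rfl

theorem ψ_φ {y : I × Bool} {e : G.X} (h : e ∈ G.U2 y) :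
    G.ψ y (G.π e, G.κ y e, G.κ (fl y) e) = e := by
  rcases G.U2_elim h with ⟨b, x, hb, rfl, hd⟩ | ⟨b, x, hb, rfl, hd⟩
  · have h1 : G.κ (fl y) (G.R y b x) = 0 := G.κ_fl hb hd
    rw [h1, G.κ_R hb, G.π_R hb]
    simp [ψ]
  · have h1 := G.κ_fl hb hd
    rw [fl_fl] at h1
    have h1' : G.κ y (G.R (fl y) b x) = 0 := h1
    rw [h1', G.κ_R hb, G.π_R hb, G.ψ_zero y hb]

variable [TopologicalSpace V] [DiscreteTopology V] [Finite I]

theorem S2_open (y : I × Bool) : IsOpen (G.S2 y) := G.Dm_open _ _ _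

theorem U2_open (y : I × Bool) : IsOpen (G.U2 y) :=
  G.gl.image_open (G.S2_sat y) ((G.S2_open y).union (G.S2_open (fl y)))

omit [DiscreteTopology V] [Finite I] in
theorem R_contAt (y : I × Bool) {b : Fin m → ℂ} {x : ℂ} (hb : b ∈ G.B) :
    ContinuousAt (fun u : (Fin m → ℂ) × ℂ => G.R y u.1 u.2) (b, x) :=
  G.par_contAt _ _ hb (G.a_an _ b hb).continuousAt

theorem κ_contOn (y : I × Bool) : ContinuousOn (G.κ y) (G.U2 y) := by
  rw [G.gl.q_quot.continuousOn_isOpen_iff (G.U2_open y), G.U2_pre]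
  rintro ⟨v, z, b⟩ (hp | hp)
  · obtain ⟨h1, h2⟩ := hp
    simp only at h1 h2
    subst h1
    have h3 : ContinuousAt (fun p : V × OnePoint ℂ × G.B => crd (G.sy y) p.2.1 - G.ay y p.2.2)
        (G.hv y, z, b) := by
      refine ContinuousAt.sub ?_ ?_
      · exact ContinuousAt.comp_of_eq (g := crd (G.sy y))
          (f := fun p : V × OnePoint ℂ × G.B => p.2.1) (crd_contAt h2.1) (by fun_prop) rfl
      · exact ContinuousAt.comp_of_eq (g := G.ay y)
          (f := fun p : V × OnePoint ℂ × G.B => (p.2.2 : Fin m → ℂ))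
          (G.a_an _ b b.2).continuousAt (by fun_prop) rfl
    refine ContinuousAt.continuousWithinAt (h3.congr ?_)
    have h4 : ∀ᶠ p : V × OnePoint ℂ × G.B in 𝓝 (G.hv y, z, b), p.1 = G.hv y :=
      ((isOpen_discrete {G.hv y}).preimage continuous_fst).mem_nhds rfl
    filter_upwards [h4] with p hp
    obtain ⟨v, z, b⟩ := p
    obtain rfl : v = G.hv y := hp
    simp only [Function.comp, κ]
    rw [← G.Q_eq b.2, if_pos (G.On_Q _ _ b.2), G.zc_Q _ _ b.2, G.π_Q b.2]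
  · have h5 : G.gl.q ⁻¹' (G.U2 y) ∈ 𝓝 (v, z, b) := by
      rw [G.U2_pre]
      exact (((G.S2_open y).union (G.S2_open (fl y)))).mem_nhds (Or.inr hp)
    obtain ⟨h1, h2⟩ := hp
    simp only at h1 h2
    subst h1
    refine ContinuousAt.continuousWithinAt
      ((continuousAt_const (y := (0 : ℂ))).congr ?_)
    have h4 : G.S2 (fl y) ∈ 𝓝 (G.hv (fl y), z, b) :=
      (G.S2_open (fl y)).mem_nhds ⟨rfl, h2⟩
    filter_upwards [h4] with p hp
    obtain ⟨v, z, b⟩ := p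
    obtain ⟨rfl, h7⟩ := hp
    simp only [Function.comp]
    have h8 := G.κ_fl b.2 h7
    rw [fl_fl] at h8
    rw [← G.Q_eq b.2]
    exact h8.symm

omit [DiscreteTopology V] [Finite I] in
theorem ψ_cont {t : (Fin m → ℂ) → ℂ} (ht : t = fun _ => 0) (y : I × Bool)
    {w : {w : (Fin m → ℂ) × ℂ × ℂ // w.2.1 * w.2.2 = t w.1}} (hb : w.1.1 ∈ G.B) :
    ContinuousAt (fun w : {w : (Fin m → ℂ) × ℂ × ℂ // w.2.1 * w.2.2 = t w.1} => G.ψ y w.1) w := by
  subst ht
  have hu : (univ : Set {w : (Fin m → ℂ) × ℂ × ℂ // w.2.1 * w.2.2 = (fun _ => (0 : ℂ)) w.1}) =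
      {w | w.1.2.2 = 0} ∪ {w | w.1.2.1 = 0} := by
    ext w
    simp only [mem_univ, mem_union, mem_ofPred_eq, true_iff]
    rcases mul_eq_zero.1 w.2 with h | h
    · exact Or.inr h
    · exact Or.inl h
  rw [← continuousWithinAt_univ, hu]
  have hB : ∀ᶠ w' : {w : (Fin m → ℂ) × ℂ × ℂ // w.2.1 * w.2.2 = (fun _ => (0 : ℂ)) w.1} in 𝓝 w,
      w'.1.1 ∈ G.B :=
    (continuous_fst.comp continuous_subtype_val).continuousAt.eventually (G.B_open.mem_nhds hb)
  refine ContinuousWithinAt.union ?_ ?_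
  · by_cases h : w.1.2.2 = 0
    · have h1 : ContinuousAt (fun w : {w : (Fin m → ℂ) × ℂ × ℂ //
          w.2.1 * w.2.2 = (fun _ => (0 : ℂ)) w.1} => G.R y w.1.1 w.1.2.1) w :=
        ContinuousAt.comp_of_eq (f := fun w : {w : (Fin m → ℂ) × ℂ × ℂ //
          w.2.1 * w.2.2 = (fun _ => (0 : ℂ)) w.1} => (w.1.1, w.1.2.1))
          (G.R_contAt y hb) (by fun_prop) rfl
      refine h1.continuousWithinAt.congr (fun w' hw' => ?_) ?_
      · simp only [ψ]
        rw [if_pos (show (w'.1).2.2 = 0 from hw')]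
      · simp only [ψ]
        rw [if_pos h]
    · refine continuousWithinAt_of_notMem_closure ?_
      rw [(isClosed_eq (by fun_prop) continuous_const).closure_eq]
      exact h
  · by_cases h : w.1.2.1 = 0
    · have h1 : ContinuousAt (fun w : {w : (Fin m → ℂ) × ℂ × ℂ //
          w.2.1 * w.2.2 = (fun _ => (0 : ℂ)) w.1} => G.R (fl y) w.1.1 w.1.2.2) w :=
        ContinuousAt.comp_of_eq (f := fun w : {w : (Fin m → ℂ) × ℂ × ℂ //
          w.2.1 * w.2.2 = (fun _ => (0 : ℂ)) w.1} => (w.1.1, w.1.2.2))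
          (G.R_contAt (fl y) hb) (by fun_prop) rfl
      refine h1.continuousWithinAt.congr_of_eventuallyEq_of_mem ?_ h
      filter_upwards [self_mem_nhdsWithin, mem_nhdsWithin_of_mem_nhds hB] with w' hw' hb'
      obtain ⟨⟨b', x', u'⟩, h''⟩ := w'
      obtain rfl : x' = 0 := hw'
      exact G.ψ_zero y hb' u'
    · refine continuousWithinAt_of_notMem_closure ?_
      rw [(isClosed_eq (by fun_prop) continuous_const).closure_eq]
      exact h

omit [TopologicalSpace V] [DiscreteTopology V] [Finite I] in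
theorem R_an_iff {y : I × Bool} {b : Fin m → ℂ} {x : ℂ} (hb : b ∈ G.B) {f : G.X → ℂ} :
    G.An f (G.hv y) (G.sy y) b (x + G.ay y b) ↔
      AnalyticAt ℂ (fun u : (Fin m → ℂ) × ℂ => f (G.R y u.1 u.2)) (b, x) :=
  G.An_shift (G.a_an _ b hb) rfl

/-- From a function of the chart coordinates to one of the coordinate of a side. -/
theorem side_of_g {y : I × Bool} {b : Fin m → ℂ} {x : ℂ} (hb : b ∈ G.B)
    (hU : G.R y b x ∈ G.U2 y) {f : G.X → ℂ} {g : (Fin m → ℂ) × ℂ × ℂ → ℂ}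
    (hg : AnalyticAt ℂ g (b, x, 0))
    (h : ∀ᶠ q in 𝓝 (G.R y b x), f q = g (G.π q, G.κ y q, G.κ (fl y) q)) :
    AnalyticAt ℂ (fun u : (Fin m → ℂ) × ℂ => f (G.R y u.1 u.2)) (b, x) := by
  have h1 : AnalyticAt ℂ (fun u : (Fin m → ℂ) × ℂ => g (u.1, u.2, 0)) (b, x) :=
    AnalyticAt.comp_of_eq (g := g) (f := fun u : (Fin m → ℂ) × ℂ => (u.1, u.2, 0)) hg
      (analyticAt_fst.prod (analyticAt_snd.prod analyticAt_const)) rfl
  refine h1.congr ?_
  have h2 := (G.R_contAt y (x := x) hb).eventually h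
  have h3 := (G.R_contAt y (x := x) hb).eventually ((G.U2_open y).mem_nhds hU)
  have h4 : ∀ᶠ u : (Fin m → ℂ) × ℂ in 𝓝 (b, x), u.1 ∈ G.B :=
    continuousAt_fst.eventually (G.B_open.mem_nhds hb)
  filter_upwards [h2, h3, h4] with u hu hu2 hb'
  rw [hu, G.π_R hb', G.κ_R hb']
  congr 3
  exact (G.κ_fl hb' (G.D_of_mem hb' hu2)).symm

/-- The holomorphic functions at a point of the side `y`. -/
theorem hol_side {y : I × Bool} {b : Fin m → ℂ} {x : ℂ} (hb : b ∈ G.B)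
    (hU : G.R y b x ∈ G.U2 y) (f : G.X → ℂ) :
    G.hol f (G.R y b x) ↔ ∃ g : (Fin m → ℂ) × ℂ × ℂ → ℂ,
      AnalyticAt ℂ g (b, x, 0) ∧
        ∀ᶠ q in 𝓝 (G.R y b x), f q = g (G.π q, G.κ y q, G.κ (fl y) q) := by
  have hd := G.D_of_mem hb hU
  by_cases hx : x = 0
  · subst hx
    have hn : G.hol f (G.R y b 0) ↔
        AnalyticAt ℂ (fun u : (Fin m → ℂ) × ℂ => f (G.R y u.1 u.2)) (b, 0) ∧
        AnalyticAt ℂ (fun u : (Fin m → ℂ) × ℂ => f (G.R (fl y) u.1 u.2)) (b, 0) := by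
      rw [← G.R_an_iff hb, ← G.R_an_iff hb]
      simp only [zero_add, R]
      exact G.hol_nd y hb
    rw [hn]
    constructor
    · rintro ⟨h1, h2⟩
      refine ⟨fun u => f (G.R y u.1 u.2.1) + f (G.R (fl y) u.1 u.2.2) - f (G.R y u.1 0), ?_, ?_⟩
      · refine (AnalyticAt.add ?_ ?_).sub ?_
        · exact AnalyticAt.comp_of_eq
            (g := fun u : (Fin m → ℂ) × ℂ => f (G.R y u.1 u.2))
            (f := fun u : (Fin m → ℂ) × ℂ × ℂ => (u.1, u.2.1)) h1
            (analyticAt_fst.prod (analyticAt_fst.comp_of_eq analyticAt_snd rfl)) rfl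
        · exact AnalyticAt.comp_of_eq
            (g := fun u : (Fin m → ℂ) × ℂ => f (G.R (fl y) u.1 u.2))
            (f := fun u : (Fin m → ℂ) × ℂ × ℂ => (u.1, u.2.2)) h2
            (analyticAt_fst.prod (analyticAt_snd.comp_of_eq analyticAt_snd rfl)) rfl
        · exact AnalyticAt.comp_of_eq
            (g := fun u : (Fin m → ℂ) × ℂ => f (G.R y u.1 u.2))
            (f := fun u : (Fin m → ℂ) × ℂ × ℂ => (u.1, (0 : ℂ))) h1
            (analyticAt_fst.prod analyticAt_const) rfl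
      · filter_upwards [(G.U2_open y).mem_nhds hU] with q hq
        rcases G.U2_elim hq with ⟨b', x', hb', rfl, hd'⟩ | ⟨b', x', hb', rfl, hd'⟩
        · have h3 : G.κ (fl y) (G.R y b' x') = 0 := G.κ_fl hb' hd'
          simp only [h3, G.κ_R hb', G.π_R hb', G.R_zero y hb', add_sub_cancel_right]
        · have h3 := G.κ_fl hb' hd'
          rw [fl_fl] at h3
          have h3' : G.κ y (G.R (fl y) b' x') = 0 := h3
          simp only [h3', G.κ_R hb', G.π_R hb', add_sub_cancel_left]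
    · rintro ⟨g, hg, h⟩
      refine ⟨G.side_of_g hb hU hg h, ?_⟩
      have h1 : G.R y b 0 = G.R (fl y) b 0 := G.R_zero y hb
      refine G.side_of_g (y := fl y) (g := fun u => g (u.1, u.2.2, u.2.1)) hb
        (by rw [U2_fl, ← h1]; exact hU) ?_ ?_
      · exact AnalyticAt.comp_of_eq (g := g)
          (f := fun u : (Fin m → ℂ) × ℂ × ℂ => (u.1, u.2.2, u.2.1)) hg
          (analyticAt_fst.prod ((analyticAt_snd.comp_of_eq analyticAt_snd rfl).prod
            (analyticAt_fst.comp_of_eq analyticAt_snd rfl))) rfl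
      · rw [← h1]
        simpa only [fl_fl] using h
  · have hs : G.Sm (G.hv y) (emb (G.sy y) (x + G.ay y b)) b := by
      intro y' h1 h2
      by_cases hy : y' = y
      · subst hy
        have := emb_inj _ h2
        exact hx (by simpa using this)
      · exact hd.2 y' h1 hy h2
    have hn : G.hol f (G.R y b x) ↔
        AnalyticAt ℂ (fun u : (Fin m → ℂ) × ℂ => f (G.R y u.1 u.2)) (b, x) := by
      rw [← G.R_an_iff hb]
      exact G.hol_sm hb hs
    rw [hn]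
    constructor
    · intro h
      refine ⟨fun u => f (G.R y u.1 u.2.1), ?_, ?_⟩
      · exact AnalyticAt.comp_of_eq
          (g := fun u : (Fin m → ℂ) × ℂ => f (G.R y u.1 u.2))
          (f := fun u : (Fin m → ℂ) × ℂ × ℂ => (u.1, u.2.1)) h
          (analyticAt_fst.prod (analyticAt_fst.comp_of_eq analyticAt_snd rfl)) rfl
      · have h4 : ∀ᶠ q in 𝓝 (G.R y b x), G.κ y q ≠ 0 := by
          have := (G.κ_contOn y).continuousAt ((G.U2_open y).mem_nhds hU)
          exact this.eventually_ne (by rw [G.κ_R hb]; exact hx)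
        filter_upwards [(G.U2_open y).mem_nhds hU, h4] with q hq hk
        rcases G.U2_elim hq with ⟨b', x', hb', rfl, hd'⟩ | ⟨b', x', hb', rfl, hd'⟩
        · rw [G.κ_R hb', G.π_R hb']
        · have h3 := G.κ_fl hb' hd'
          rw [fl_fl] at h3
          exact absurd h3 hk
    · rintro ⟨g, hg, h⟩
      exact G.side_of_g hb hU hg h

theorem isChart2 (y : I × Bool) : H183.IsChart G.π G.hol (G.U2 y) (G.κ y) (G.κ (fl y))
    (fun _ => 0) := by
  have hφ : ∀ p ∈ G.U2 y, G.κ y p * G.κ (fl y) p = 0 := by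
    intro p hp
    rcases G.U2_elim hp with ⟨b, x, hb, rfl, hd⟩ | ⟨b, x, hb, rfl, hd⟩
    · have h1 : G.κ (fl y) (G.R y b x) = 0 := G.κ_fl hb hd
      rw [h1, mul_zero]
    · have h1 := G.κ_fl hb hd
      rw [fl_fl] at h1
      have h1' : G.κ y (G.R (fl y) b x) = 0 := h1
      rw [h1', zero_mul]
  refine ⟨G.U2_open y, fun _ _ => analyticAt_const, ?_, ?_, ?_⟩
  · intro p hp p' hp' h
    simp only [Prod.mk.injEq] at h
    rw [← G.ψ_φ hp, ← G.ψ_φ hp', h.1, h.2.1, h.2.2]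
  · refine isOpen_iff_of_emb (t := fun _ => 0) (x := G.κ y)
      (y := G.κ (fl y)) (G.U2_open y) hφ ?_
    refine isOpenEmbedding_of_inv
      (W := {w : {w : (Fin m → ℂ) × ℂ × ℂ | w.2.1 * w.2.2 = 0} |
        ∃ hb : w.1.1 ∈ G.B, (G.hv y, emb (G.sy y) (w.1.2.1 + G.ay y w.1.1), ⟨w.1.1, hb⟩) ∈
          G.S2 y} ∩ {w : {w : (Fin m → ℂ) × ℂ × ℂ | w.2.1 * w.2.2 = 0} |
        ∃ hb : w.1.1 ∈ G.B, (G.hv (fl y), emb (G.sy (fl y)) (w.1.2.2 + G.ay (fl y) w.1.1),
          ⟨w.1.1, hb⟩) ∈ G.S2 (fl y)})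
      (ψ := fun w => G.ψ y w.1) ?_ ?_ ?_ ?_ ?_
    · have hc : ∀ y : I × Bool, ContinuousOn (G.ay y) G.B := fun y b hb =>
        (G.a_an _ b hb).continuousAt.continuousWithinAt
      refine IsOpen.inter ?_ ?_
      · refine G.W_open (G.S2_open y) _ _ (fun w => w.2.1 + G.ay y w.1) ?_
        exact ContinuousOn.add (by fun_prop) ((hc y).comp continuousOn_fst fun w hw => hw)
      · refine G.W_open (G.S2_open (fl y)) _ _ (fun w => w.2.2 + G.ay (fl y) w.1) ?_
        exact ContinuousOn.add (by fun_prop) ((hc (fl y)).comp continuousOn_fst fun w hw => hw)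
    · refine Continuous.subtype_mk (Continuous.prodMk ?_ (Continuous.prodMk ?_ ?_)) _
      · exact G.π_cont.comp continuous_subtype_val
      · exact continuousOn_iff_continuous_domRestrict.1 (G.κ_contOn y)
      · have := G.κ_contOn (fl y)
        rw [U2_fl] at this
        exact continuousOn_iff_continuous_domRestrict.1 this
    · rintro w ⟨⟨hb, -⟩, -⟩
      exact (G.ψ_cont rfl y hb).continuousWithinAt
    · rintro ⟨e, he⟩
      refine ⟨?_, G.ψ_φ he⟩
      rcases G.U2_elim he with ⟨b, x, hb, rfl, hd⟩ | ⟨b, x, hb, rfl, hd⟩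
      · have h1 : G.κ (fl y) (G.R y b x) = 0 := G.κ_fl hb hd
        refine ⟨⟨G.π_mem _, rfl, ?_⟩, ⟨G.π_mem _, rfl, ?_⟩⟩
        · simp only [G.κ_R hb, G.π_R hb]
          exact hd
        · simp only [h1, G.π_R hb, zero_add]
          exact G.D_ps _ hb
      · have h1 := G.κ_fl hb hd
        rw [fl_fl] at h1
        have h1' : G.κ y (G.R (fl y) b x) = 0 := h1
        refine ⟨⟨G.π_mem _, rfl, ?_⟩, ⟨G.π_mem _, rfl, ?_⟩⟩
        · simp only [h1', G.π_R hb, zero_add]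
          exact G.D_ps _ hb
        · simp only [G.κ_R hb, G.π_R hb]
          exact hd
    · rintro ⟨⟨b, x, u⟩, hw⟩ ⟨⟨hb, -, h1⟩, ⟨hb', -, h2⟩⟩
      rcases mul_eq_zero.1 (show x * u = 0 from hw) with h | h
      · subst h
        refine ⟨?_, ?_⟩
        · change G.ψ y (b, 0, u) ∈ _
          rw [G.ψ_zero y hb, ← U2_fl]
          exact G.mem_U2 hb h2
        · have h3 := G.κ_fl hb h2
          rw [fl_fl] at h3
          have h3' : G.κ y (G.R (fl y) b u) = 0 := h3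
          simp only [G.ψ_zero y hb, G.π_R hb, G.κ_R hb, h3']
      · subst h
        have h4 : G.ψ y (b, x, 0) = G.R y b x := by simp [ψ]
        refine ⟨?_, ?_⟩
        · change G.ψ y (b, x, 0) ∈ _
          rw [h4]
          exact G.mem_U2 hb h1
        · have h3' : G.κ (fl y) (G.R y b x) = 0 := G.κ_fl hb h1
          simp only [h4, G.π_R hb, G.κ_R hb, h3']
  · intro p hp f
    rcases G.U2_elim hp with ⟨b, x, hb, rfl, hd⟩ | ⟨b, x, hb, rfl, hd⟩
    · have h1 : G.κ (fl y) (G.R y b x) = 0 := G.κ_fl hb hd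
      rw [G.hol_side hb hp, G.π_R hb, G.κ_R hb, h1]
    · have h1 := G.κ_fl hb hd
      rw [fl_fl] at h1
      have h1' : G.κ y (G.R (fl y) b x) = 0 := h1
      have hp' : G.R (fl y) b x ∈ G.U2 (fl y) := by rw [U2_fl]; exact hp
      rw [G.hol_side hb hp', G.π_R hb, G.κ_R hb, h1', fl_fl]
      constructor
      · rintro ⟨g, hg, h⟩
        refine ⟨fun u => g (u.1, u.2.2, u.2.1), ?_, h⟩
        exact AnalyticAt.comp_of_eq (g := g)
          (f := fun u : (Fin m → ℂ) × ℂ × ℂ => (u.1, u.2.2, u.2.1)) hg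
          (analyticAt_fst.prod ((analyticAt_snd.comp_of_eq analyticAt_snd rfl).prod
            (analyticAt_fst.comp_of_eq analyticAt_snd rfl))) rfl
      · rintro ⟨g, hg, h⟩
        refine ⟨fun u => g (u.1, u.2.2, u.2.1), ?_, h⟩
        exact AnalyticAt.comp_of_eq (g := g)
          (f := fun u : (Fin m → ℂ) × ℂ × ℂ => (u.1, u.2.2, u.2.1)) hg
          (analyticAt_fst.prod ((analyticAt_snd.comp_of_eq analyticAt_snd rfl).prod
            (analyticAt_fst.comp_of_eq analyticAt_snd rfl))) rfl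

end GC

end Vale.Agent.P273.H768

end
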