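import Vale.Agent.P273.H768.Steps
import Vale.Agent.P273.H949.QBub
import Vale.Agent.P273.H949.QNodeState
import Vale.Agent.P273.H949.Stable

/-!
The insertion process ends with a family of stable curves.
-/

noncomputable section

open Set Filter Topology OnePoint

namespace Vale.Agent.P273.H768

open Vale.Agent.P273.H948 Vale.Agent.P273.H469 Vale.Agent.P273.H599 Vale.Agent.P273.H949

variable {m : ℕ} {X₀ : Surf m} {L : Type} {P : L → (Fin m → ℂ) → X₀.X} {A : Set L}

/-- The absence of vector fields is closed under the moves. -/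
theorem closed_qStab : Closed (X₀ := X₀) (P := P) fun _ σ => QStab σ where
  shrink _ _ B' hB' hB x₀ h := h.shrink B' hB' hB x₀
  add _ _ j hs hd _ h := h.add j hs hd
  bub _ _ _ _ N h := h.bubState N
  node _ _ _ N h := h.nodeState N

/-- **The insertion theorem for stable curves.** -/
theorem exists_stable_state [Finite L] {Λ : Lab L m} {c : Fin m → ℂ} (σ : State X₀ P A)
    (hc : c ∈ σ.F.B) (hQ : QStab σ) (hg : Good Λ σ.F.S σ.r σ.s c) :
    ∃ σ' : State X₀ P univ, c ∈ σ'.F.B ∧ σ'.F.B ⊆ σ.F.B ∧ (toFam σ'.F σ'.s).IsStable := by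
  obtain ⟨σ', h1, h2, h3⟩ := exists_state closed_qStab σ hc hQ hg
  exact ⟨σ', h1, h2, h3.isStable⟩

end Vale.Agent.P273.H768

end
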