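import Vale.Agent.P273.H768.Trans
import Vale.Agent.P273.H996.NodeState

/-!
The third step of the insertion process (a node), and the final theorem for a property of states
that is closed under the four moves.
-/

noncomputable section

open Set Filter Topology OnePoint

namespace Vale.Agent.P273.H768

open Vale.Agent.P273.H948 Vale.Agent.P273.H469 Vale.Agent.P273.H599

variable {m : ℕ} {X₀ : Surf m} {L : Type} {P : L → (Fin m → ℂ) → X₀.X} {A : Set L}

/-- A property of states closed under the four moves. -/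
structure Closed (Q : Motive X₀ P) : Prop where
  shrink : ∀ A (σ : State X₀ P A) B' hB' hB x₀, Q A σ → Q A (σ.shrink B' hB' hB x₀)
  add : ∀ A (σ : State X₀ P A) j hs hd, j ∉ A → Q A σ → Q (insert j A) (σ.add j hs hd)
  bub : ∀ A (σ : State X₀ P A) i j (N : BubMove σ i j), Q A σ → Q (insert j A) N.state
  node : ∀ A (σ : State X₀ P A) j (N : NodeMove σ j), Q A σ → Q (insert j A) N.state

/-- The model at the new line. -/
theorem node_model {σ : State X₀ P A} {j : L} (N : NodeMove σ j) :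
    ∃ (U' : Set N.D.modif.T.X) (a : N.D.modif.T.X → ℂ),
      IsModel N.D.modif.T.π N.D.modif.T.hol U' a (N.D.v ∘ N.D.modif.r) N.D.τ₁ ∧
      (∀ y ∈ U', N.D.modif.r y ∈ N.D.U ∧ (a y = 0 → N.D.u (N.D.modif.r y) = 0)) ∧
      ∀ k ∈ N.K, ∀ b ∈ σ.F.B, N.s' k b ∈ U' ∧ a (N.s' k b) = N.α k b := by
  have h0 : IsModel N.D.node.π N.D.node.hol {y | N.D.a y ≠ ∞} N.D.fa
      (fun y => N.D.v (N.D.ρ y)) N.D.τ₁ := N.D.model₁
  have h1 := h0.image (πY := N.D.modif.T.π) (holY := N.D.modif.T.hol) N.D.modif.embN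
    (fun x => by rw [← Modif.πr, Modif.rN, Modif.hπ]) (fun x g => N.D.modif.holN x g)
  have hinj : Function.Injective N.D.modif.ιN := N.D.modif.embN.injective
  have ha : ∀ y : N.D.Sp, Function.extend N.D.modif.ιN N.D.fa 0 (N.D.modif.ιN y) = N.D.fa y :=
    fun y => hinj.extend_apply _ _ _
  refine ⟨_, Function.extend N.D.modif.ιN N.D.fa 0, h1.congr
    (v' := N.D.v ∘ N.D.modif.r) (fun _ _ => rfl) ?_, ?_, ?_⟩
  · rintro _ ⟨y, -, rfl⟩
    rw [hinj.extend_apply, Function.comp, Modif.rN]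
    rfl
  · rintro _ ⟨y, hy, rfl⟩
    rw [Modif.rN]
    refine ⟨N.D.mem y, fun h3 => ?_⟩
    have h4 := (ha y).symm.trans h3
    have h2 := ((N.D.rel y).1 hy).1
    change N.D.u (N.D.ρ y) = 0
    rw [h2]
    change _ * N.D.fa y = 0
    rw [h4, mul_zero]
  · intro k hk b hb
    obtain ⟨y, e, e1, e2⟩ := N.s'_mem hk hb
    refine ⟨⟨y, ?_, e.symm⟩, ?_⟩
    · change N.D.a y ≠ ∞
      rw [e2]
      exact OnePoint.coe_ne_infty _
    · rw [e]
      refine (ha y).trans ?_
      change fv (N.D.a y) = _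
      rw [e2, fv_coe]

theorem stepNode [Finite L] {Λ : Lab L m} {Q : Motive X₀ P} (hQc : Closed Q) : StepNode Λ Q := by
  intro A σ c j hc hQ hj U u v t hm hx hu hv hB hA hr
  obtain ⟨B', hB', hBB, x₀, N, hcB, hK, hU, hNu, hNv, hα⟩ := exists_nodeMove σ hc hj hm hx hu hv
    hB hA (μ := fun k => Λ.μ j k) fun k hk he => (hr k hk he).2
  have hKmem : ∀ k, σ.s k c = σ.s j c → k ∈ N.K := fun k hk => by rw [hK]; exact hk
  obtain ⟨U', a, h1, h2, h3⟩ := node_model N
  refine ⟨N.state, hcB, hBB, hQc.node _ _ j N (hQc.shrink _ _ _ _ _ _ hQ), _,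
    (trans_shrink σ hB' hBB x₀ hcB).comp (r2 := N.state.r) (s2 := N.state.s)
      (trans_mod (σ.shrink B' hB' hBB x₀) (M := N.D.modif) (s' := N.s')
        (fun k b _ => N.r_s' k b) hcB) (fun _ _ => notMem_empty _) fun k hk' => ?_,
    U', a, N.D.τ₁, ?_, ?_, ?_, ?_, ?_⟩
  · refine N.not_mem_Z (fun h => hk' ?_) hcB
    rw [hK] at h
    exact h
  · have h6 : N.D.v ∘ N.D.modif.r = (v ∘ shInc σ.F hB' hBB) ∘ N.D.modif.r := by
      rw [hNv]; rfl
    rw [h6] at h1
    exact h1
  · intro y hy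
    obtain ⟨h4, h5⟩ := h2 y hy
    rw [hU] at h4
    rw [hNu] at h5
    exact ⟨h4, h5⟩
  · exact (h3 j N.jK c hcB).1
  · rw [show a (N.state.s j c) = N.α j c from (h3 j N.jK c hcB).2, N.α_j]
  · intro k hk he
    refine ⟨(h3 k (hKmem k he) c hcB).1, ?_⟩
    filter_upwards [hB'.mem_nhds hcB] with b hb
    rw [show a (N.state.s k b) = N.α k b from (h3 k (hKmem k he) b hb).2, hα k hk he]

/-- **The insertion theorem.** From a good state over a neighbourhood of `c` one gets a state with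
all labels inserted, over a smaller neighbourhood, with every property that is closed under the
moves. -/
theorem exists_state [Finite L] {Λ : Lab L m} {Q : Motive X₀ P} (hQc : Closed Q)
    {c : Fin m → ℂ} (σ : State X₀ P A) (hc : c ∈ σ.F.B) (hQ : Q A σ)
    (hg : Good Λ σ.F.S σ.r σ.s c) :
    ∃ σ' : State X₀ P univ, c ∈ σ'.F.B ∧ σ'.F.B ⊆ σ.F.B ∧ Q _ σ' :=
  exists_final (stepAdd hQc.shrink hQc.add) (stepBub hQc.shrink hQc.bub) (stepNode hQc) _ A σ rfl
    hc hQ hg

end Vale.Agent.P273.H768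

end
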