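import Vale.Agent.P273.H768.T2lim
import Vale.Agent.P273.H578.InA0
import Vale.Agent.P273.H469.Sep
import Vale.Agent.P273.H149.SepF2
import Vale.Agent.P273.H973.GaugeOf

/-!
# P273, (T2) item (G): the limits for `gaugeOf O`, with the separation and the bridge plugged in
-/

noncomputable section

namespace Vale.Agent.P273.H768.T2

open Set Filter H681 H95 H732 H562 H973 H803
open scoped Topology ContDiff

theorem inF1 : InF1 := fun _ _ _ hS _ _ hG hy _ _ h => H469.Sep.sep hS hG hy h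

theorem inF2 (κ : Fin 3 → Fin 3 → ℝ) : InF2 κ :=
  fun _ _ _ _ _ _ hG hy ξ _ _ _ h _ hd => H149.lgL_eq hG hy h ξ hd

variable {κ : Fin 3 → Fin 3 → ℝ} {O : One}

/-- `limN` for the gauge -/
theorem limN_of (hA : AsyL κ (lgP O)) (hV : Vert O) (h5 : InB5) :
    ∀ R m S, FarOk R S → ∀ (B : Set (W R m).Fr) (p : Co R m), Gen R m S B p →
    (∀ k, 0 < p.2.2.1 k) → ∀ (j : L) (k : Fin 3) (h : R.pl j = Sum.inl k) (ξ : Fin 6 → ℝ),
    IsCl ξ → ∀ d : BDir R m, d.ok R m B →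
    Tendsto (fun N : ℝ => d.sca R m N * leg R m (gaugeOf O) S j ξ ((W R m).dpt B N p)
      (d.vec R m B ((W R m).dpt B N p))) atTop
      (𝓝 (legN κ R m ξ p.2.2.1 p.2.2.2.1 k (depl R m B p h)
        (wreg.LX R.Cm R.n m k (rkF R h)) d)) :=
  limN hA hV H578.inA0 (fun _ _ _ _ _ => rfl) inF1 (inF2 κ) h5

/-- `limC` for the gauge -/
theorem limC_of (hA : AsyL κ (lgP O)) (hV : Vert O) (h5 : InB5) :
    ∀ R m S, FarOk R S → ∀ (B : Set (W R m).Fr) (p : Co R m), Gen R m S B p →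
    (∀ k, 0 < p.2.2.1 k) → ∀ (j : L) (b : Bool), R.pl j = Sum.inr b → ∀ ξ : Fin 6 → ℝ,
    IsCl ξ → ∀ d : BDir R m, d.ok R m B →
    Tendsto (fun N : ℝ => d.sca R m N * leg R m (gaugeOf O) S j ξ ((W R m).dpt B N p)
      (d.vec R m B ((W R m).dpt B N p))) atTop
      (𝓝 (legC κ R m ξ p.2.2.1 p.2.2.2.1 b d)) :=
  limC hA hV H578.inA0 (fun _ _ _ _ _ => rfl) inF1 (inF2 κ) h5

/-- `lim0` for the gauge -/
theorem lim0_of (hA : AsyL κ (lgP O)) (hV : Vert O) (h5 : InB5) :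
    ∀ R m S, FarOk R S → ∀ (B : Set (W R m).Fr) (p : Co R m), Gen R m S B p →
    (∀ k, 0 < p.2.2.1 k) → ∀ (j : L) (ξ : Fin 6 → ℝ), IsCl ξ → (∀ k, bt ξ k = 0) →
    (∀ f ∈ B, Tendsto (fun N : ℝ => N * leg R m (gaugeOf O) S j ξ ((W R m).dpt B N p)
      ((W R m).vec (.ph f))) atTop (𝓝 0)) ∧
    ∀ l, Tendsto (fun N : ℝ => N * leg R m (gaugeOf O) S j ξ ((W R m).dpt B N p)
      ((W R m).vec (.al l))) atTop (𝓝 0) :=
  lim0 hA hV H578.inA0 (fun _ _ _ _ _ => rfl) inF1 h5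

end Vale.Agent.P273.H768.T2

end
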