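import Vale.Agent.P273.H768.T2fin
import Vale.Agent.P273.H778.T2fin
import Vale.Agent.P273.H655.A4

/-!
# P273, (T2): from one mark to the gauge

`asyL_of_one`: the asymptotic properties of the legs of the one mark forms pass to the gauge.
-/

noncomputable section

namespace Vale.Agent.P273.H768.T2

open Set Filter H681 H95 H732 H562 H973 H803 H778
open scoped Topology ContDiff

/-- **(T2)**, over (B5) -/
theorem asyL_of_one_of {κ : Fin 3 → Fin 3 → ℝ} {O : One} (hA : AsyL κ (lgP O)) (hV : Vert O)
    (hZ : Disc0 O) (h5 : InB5) : AsyL κ (lgT O) :=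
  asyL_of_lims hA hV (H655.inA4 H578.inA0 hZ) (limN_of hA hV h5) (limC_of hA hV h5)
    (lim0_of hA hV h5)

end Vale.Agent.P273.H768.T2

end
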