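import Vale.Agent.P273.H768.OfCoord
import Vale.Agent.P273.H93.Comb

/-!
Coordinates for the start theta graphs, and their glued families.
-/

noncomputable section

namespace Vale.Agent.P273.H768

open Set Sum
open H837 (Coord pt Hol1)
open H93 (Gr thE he lg)
open Z (hd)

/-- A graph with enough half-edges at each vertex has coordinates. -/
theorem exists_coord {E L V : Type} [Fintype E] [Fintype L] [Fintype V] (h : (E × Bool) ⊕ L → V)
    (m : ℕ) (hm : Fintype.card ((E × Bool) ⊕ L) = 3 * Fintype.card V + m)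
    (h3 : ∀ v, ∃ f : Fin 3 → (E × Bool) ⊕ L, Function.Injective f ∧ ∀ i, h (f i) = v) :
    Nonempty (Coord h m) := by
  classical
  choose f hf1 hf2 using h3
  let F : V × Fin 3 → (E × Bool) ⊕ L := fun u => f u.1 u.2
  have hF : Function.Injective F := by
    rintro ⟨v, i⟩ ⟨v', i'⟩ hh
    have h1 : v = v' := by
      have := congrArg h hh
      rwa [hf2, hf2] at this
    subst h1
    rw [hf1 v (show f v i = f v i' from hh)]
  have hk : Fintype.card {y // y ∉ range F} = m := by
    have h1 : Fintype.card {y // y ∈ range F} = 3 * Fintype.card V := by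
      rw [Fintype.card_congr (Equiv.ofInjective F hF).symm, Fintype.card_prod, Fintype.card_fin,
        mul_comm]
    have h2 := Fintype.card_subtype_compl (fun y => y ∈ range F)
    rw [hm, h1] at h2
    omega
  let k := Fintype.equivFinOfCardEq hk
  let c : (E × Bool) ⊕ L → Fin 3 ⊕ Fin m := fun y =>
    if hy : y ∈ range F then inl hy.choose.2 else inr (k ⟨y, hy⟩)
  have hcF : ∀ u, c (F u) = inl u.2 := by
    intro u
    have hy : F u ∈ range F := ⟨u, rfl⟩
    simp only [c, dif_pos hy]
    rw [hF hy.choose_spec]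
  refine ⟨⟨c, fun v i => ⟨F (v, i), ⟨hf2 v i, hcF _⟩, ?_⟩, fun j => ⟨(k.symm j).1, ?_, ?_⟩⟩⟩
  · rintro y ⟨h1, h2⟩
    by_cases hy : y ∈ range F
    · obtain ⟨⟨v', i'⟩, rfl⟩ := hy
      rw [hcF] at h2
      obtain rfl : i' = i := inl_injective h2
      have h4 : v' = v := by rw [← h1]; exact (hf2 v' i').symm
      rw [h4]
    · simp only [c, dif_neg hy] at h2
      exact absurd h2 (by simp)
  · simp only [c, dif_neg (k.symm j).2]
    simp
  · intro y h2
    by_cases hy : y ∈ range F
    · simp only [c, dif_pos hy] at h2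
      exact absurd h2 (by simp)
    · simp only [c, dif_neg hy] at h2
      have h4 := inr_injective h2
      rw [← h4, Equiv.symm_apply_apply]

theorem three {α β : Type} {h : α → β} {v : β} (a b c : α) (hab : a ≠ b) (hac : a ≠ c)
    (hbc : b ≠ c) (ha : h a = v) (hb : h b = v) (hc : h c = v) :
    ∃ f : Fin 3 → α, Function.Injective f ∧ ∀ i, h (f i) = v := by
  refine ⟨![a, b, c], ?_, ?_⟩
  · intro i j hij
    fin_cases i <;> fin_cases j <;> simp_all [eq_comm]
  · intro i
    fin_cases i <;> simp [ha, hb, hc]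

variable {p q : ℕ}

/-- The last edges of the three chains. -/
def le3 (p q : ℕ) : Fin 3 → Fin 3 ⊕ Fin 6 :=
  ![if p = 0 then inl 0 else inr (Fin.ofNat 6 (p - 1)),
    if p = q then inl 1 else inr (Fin.ofNat 6 (q - 1)),
    if q = 6 then inl 2 else inr 5]

theorem le3_inj (hp : p ≤ q) (hq : q ≤ 6) : Function.Injective (le3 p q) := by
  interval_cases q <;> interval_cases p <;> decide

theorem le3_hd (hp : p ≤ q) (hq : q ≤ 6) : ∀ i, hd p q (le3 p q i) = 6 := by
  interval_cases q <;> interval_cases p <;> decide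

theorem thE_three (e : Bool → Bool) (σ : Bool → Equiv.Perm (Fin 7)) (hp : p ≤ q) (hq : q ≤ 6)
    (v : Option (Fin 7)) : ∃ f : Fin 3 → ((Fin 3 ⊕ Fin 6) × Bool) ⊕ (Fin 7 × Bool), Function.Injective f ∧
      ∀ i, thE e p q σ (f i) = v := by
  rcases v with _ | t
  · exact ⟨fun r => inl (inl r, true), fun r r' h => by simpa using h, fun r => rfl⟩
  · rcases Fin.eq_castSucc_or_eq_last t with ⟨t, rfl⟩ | rfl
    · have ht : t.castSucc ≠ (6 : Fin 7) := Fin.castSucc_ne_last t
      refine three (inl (inr t, true)) (inr ((σ true).symm t.castSucc, true))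
        (inr ((σ false).symm t.castSucc, false)) (by simp) (by simp) (by simp) rfl ?_ ?_
      · simp [thE, lg, ht]
      · simp [thE, lg, ht]
    · refine ⟨fun r => inl (le3 p q r, false), fun r r' h => ?_, fun r => ?_⟩
      · exact le3_inj hp hq (by simpa using h)
      · change some (hd p q (le3 p q r)) = _
        rw [le3_hd hp hq]
        rfl

theorem thE_loop (e : Bool → Bool) (p q : ℕ) (σ : Bool → Equiv.Perm (Fin 7))
    (y : (Fin 3 ⊕ Fin 6) × Bool) : thE e p q σ (inl (fl y)) ≠ thE e p q σ (inl y) := by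
  have key : ∀ a : Fin 3 ⊕ Fin 6, he p q (a, true) ≠ he p q (a, false) := by
    intro a
    rcases a with r | t
    · simp [he]
    · simp only [he, cond_true, cond_false, elim_inr, ne_eq, Option.some.injEq, hd]
      split_ifs with h
      · exact Fin.castSucc_ne_last t
      · exact (Fin.castSucc_lt_succ (i := t)).ne
  obtain ⟨a, s⟩ := y
  cases s
  · exact key a
  · exact (key a).symm

theorem thE_conn (e : Bool → Bool) (σ : Bool → Equiv.Perm (Fin 7)) (p q : ℕ) :
    GConn (thE e p q σ) := by
  set r : Option (Fin 7) → Option (Fin 7) → Prop := fun v v' =>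
    ∃ y : (Fin 3 ⊕ Fin 6) × Bool, thE e p q σ (inl y) = v ∧ thE e p q σ (inl (fl y)) = v' with hr
  have hsym : Std.Symm r := ⟨by
    rintro v v' ⟨y, h1, h2⟩
    exact ⟨fl y, h2, by rw [fl_fl]; exact h1⟩⟩
  have h1 : ∀ n : ℕ, ∀ t : Fin 7, 6 - t.1 ≤ n → Relation.ReflTransGen r (some t) (some 6) := by
    intro n
    induction n with
    | zero =>
      intro t ht
      obtain rfl : t = 6 := by
        apply Fin.ext
        change t.1 = 6
        omega
      exact Relation.ReflTransGen.refl
    | succ n ih =>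
      intro t ht
      rcases Fin.eq_castSucc_or_eq_last t with ⟨t, rfl⟩ | rfl
      · have h2 : r (some t.castSucc) (some (hd p q (inr t))) := ⟨(inr t, true), rfl, rfl⟩
        refine Relation.ReflTransGen.head h2 ?_
        simp only [hd, elim_inr]
        split_ifs with h3
        · exact Relation.ReflTransGen.refl
        · apply ih
          simp only [Fin.val_castSucc, Fin.val_succ] at ht ⊢
          omega
      · exact Relation.ReflTransGen.refl
  have h2 : ∀ v, Relation.ReflTransGen r v (some 6) := by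
    intro v
    rcases v with _ | t
    · exact Relation.ReflTransGen.head (b := some (hd p q (inl 0))) ⟨(inl 0, true), rfl, rfl⟩
        (h1 _ _ le_rfl)
    · exact h1 _ _ le_rfl
  intro v v'
  exact (h2 v).trans (Std.Symm.symm _ _ (h2 v'))

theorem thE_coord (e : Bool → Bool) (σ : Bool → Equiv.Perm (Fin 7)) (hp : p ≤ q) (hq : q ≤ 6) :
    Nonempty (Coord (thE e p q σ) 8) :=
  exists_coord _ 8 (by simp [Fintype.card_option]) (thE_three e σ hp hq)

end Vale.Agent.P273.H768

end
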