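import Vale.Agent.P273.H768.Word
import Vale.Agent.P273.H768.Exs
import Vale.Agent.P273.H182.BubState
import Vale.Agent.P273.H948.Lift

/-!
The two first steps of the insertion process: a free smooth point, a smooth point with one mark.
-/

noncomputable section

open Set Filter Topology OnePoint

namespace Vale.Agent.P273.H768

open Vale.Agent.P273.H948 Vale.Agent.P273.H469 Vale.Agent.P273.H599

variable {m : ℕ} {X₀ : Surf m} {L : Type} {P : L → (Fin m → ℂ) → X₀.X} {A : Set L}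

theorem Trans.comp {S S1 S2 : Surf m} {r : S.X → X₀.X} {r1 : S1.X → X₀.X} {r2 : S2.X → X₀.X}
    {s : L → (Fin m → ℂ) → S.X} {s1 : L → (Fin m → ℂ) → S1.X} {s2 : L → (Fin m → ℂ) → S2.X}
    {c : Fin m → ℂ} {Z1 : Set S.X} {Z2 : Set S1.X} {ϖ1 : S1.X → S.X} {ϖ2 : S2.X → S1.X}
    (h1 : Trans S S1 r r1 s s1 c Z1 ϖ1) (h2 : Trans S1 S2 r1 r2 s1 s2 c Z2 ϖ2) {Z : Set S.X}
    (hZ1 : ∀ k, s k c ∉ Z → s k c ∉ Z1) (hZ2 : ∀ k, s k c ∉ Z → s1 k c ∉ Z2) :
    Trans S S2 r r2 s s2 c Z (ϖ1 ∘ ϖ2) where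
  con y := by rw [h2.con, h1.con]; rfl
  sec k := by
    filter_upwards [h1.sec k, h2.sec k] with b h3 h4
    rw [Function.comp, h4, h3]
  model k hk U u v t hm hx := by
    obtain ⟨U1, hU1, h3, h4⟩ := h1.model k (hZ1 k hk) U u v t hm hx
    obtain ⟨U2, hU2, h5, h6⟩ := h2.model k (hZ2 k hk) U1 _ _ t h4 h3
    exact ⟨U2, fun y hy => hU1 (hU2 hy), h5, h6⟩
  inj k l he hk := h2.inj k l (h1.inj k l he (hZ1 k hk)) (hZ2 k hk)

theorem trans_shrink (σ : State X₀ P A) {B' : Set (Fin m → ℂ)} (hB' : IsOpen B')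
    (hB : B' ⊆ σ.F.B) (x₀ : (σ.F.shrink B' hB' hB).S.X) {c : Fin m → ℂ} (hc : c ∈ B') :
    Trans σ.F.S (σ.shrink B' hB' hB x₀).F.S σ.r (σ.shrink B' hB' hB x₀).r σ.s
      (σ.shrink B' hB' hB x₀).s c ∅ (shInc σ.F hB' hB) where
  con _ := rfl
  sec k := by
    filter_upwards [hB'.mem_nhds hc] with b hb
    exact shrink_s_eq σ hB' hB x₀ k hb
  model k _ U u v t hm hx := by
    refine ⟨_, Subset.rfl, ?_, shrink_model σ hB' hB x₀ hm⟩
    change shInc σ.F hB' hB _ ∈ U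
    rw [shrink_s_eq σ hB' hB x₀ k hc]
    exact hx
  inj k l he _ := (shrink_eq_iff σ hB' hB x₀ k l hc).2 he

theorem trans_mod (σ : State X₀ P A) {N' : Surf m} {M : Modif σ.F.S N'}
    {s' : L → (Fin m → ℂ) → M.T.X} (hrs : ∀ j, ∀ b ∈ σ.F.B, M.r (s' j b) = σ.s j b)
    {c : Fin m → ℂ} (hc : c ∈ σ.F.B) :
    Trans σ.F.S M.T σ.r (fun x => σ.r (M.r x)) σ.s s' c M.Z M.r where
  con _ := rfl
  sec k := by
    filter_upwards [σ.F.openB.mem_nhds hc] with b hb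
    exact hrs k b hb
  model k hk U u v t hm hx := by
    refine ⟨M.r ⁻¹' (U ∩ M.Zᶜ), fun y hy => hy.1, ?_, Modif.isModel_lift
      (hm.mono (hm.isOpen.inter M.closed.isOpen_compl) inter_subset_left) fun x hx => hx.2⟩
    rw [mem_preimage, hrs k c hc]
    exact ⟨hx, hk⟩
  inj k l he hk := by
    refine M.r_inj ?_ ?_ ?_
    · rw [mem_preimage, hrs k c hc]; exact hk
    · rw [mem_preimage, hrs l c hc, ← he]; exact hk
    · rw [hrs k c hc, hrs l c hc, he]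

theorem stepAdd [Finite L] {Q : Motive X₀ P}
    (hs : ∀ A (σ : State X₀ P A) B' hB' hB x₀, Q A σ → Q A (σ.shrink B' hB' hB x₀))
    (ha : ∀ A (σ : State X₀ P A) j hs hd, j ∉ A → Q A σ → Q (insert j A) (σ.add j hs hd)) :
    StepAdd Q := by
  intro A σ c j hc hQ hj hsm hA
  obtain ⟨B', hB', hB, x₀, hcB, h1, h2⟩ := exists_shrink_add σ hc j hsm hA
  exact ⟨(σ.shrink B' hB' hB x₀).add j h1 h2, hcB, hB, ha _ _ j h1 h2 hj (hs _ _ _ _ _ _ hQ),
    _, trans_shrink σ hB' hB x₀ hcB⟩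

theorem stepBub [Finite L] {Q : Motive X₀ P}
    (hs : ∀ A (σ : State X₀ P A) B' hB' hB x₀, Q A σ → Q A (σ.shrink B' hB' hB x₀))
    (hb : ∀ A (σ : State X₀ P A) i j (N : BubMove σ i j), Q A σ → Q (insert j A) N.state) :
    StepBub Q := by
  intro A σ c i j hc hQ hi hj e hk
  obtain ⟨B', hB', hB, x₀, N, hcB⟩ := exists_bubMove σ hc hi hj e hk
  refine ⟨N.state, hcB, hB, hb _ _ i j N (hs _ _ _ _ _ _ hQ), _,
    (trans_shrink σ hB' hB x₀ hcB).comp (r2 := N.state.r) (s2 := N.state.s)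
      (trans_mod (σ.shrink B' hB' hB x₀) (M := N.D.modif) (s' := N.s')
        (fun k b _ => N.r_s' k b) hcB) (fun _ _ => notMem_empty _) fun k hk' => ?_⟩
  have h1 : k ≠ i := by
    rintro rfl
    exact hk' e
  have h2 : k ≠ j := by
    rintro rfl
    exact hk' rfl
  exact N.not_mem_Z h1 h2 hcB

end Vale.Agent.P273.H768

end
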